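import Vale.Agent.N330B.Rep

/-!
P330, third hand-in: the players of a polymatrix game are put into groups such that two groups are
joined by at most three edges; equilibria of the repeated game give weak equilibria.
-/

namespace Vale.Agent.N330B

open Finset Vale.Agent.N330

/-! ### Greedy colouring -/

/-- the colours which are forbidden for `v` -/
def forb (l : List Sub) (m : ℕ) (c : List ℕ) (v : ℕ) : List ℕ :=
  (l.filter fun e => decide (e.j = v)).flatMap fun e =>
    (l.filter fun e' => decide (e'.i / m = e.i / m)).map fun e' => c.getD e'.j 0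

/-- the first free colour -/
def pick (l : List Sub) (m : ℕ) (c : List ℕ) (v : ℕ) : ℕ :=
  ((List.range (10 * m)).find? fun a => decide (a ∉ forb l m c v)).getD 0

/-- the colours of the first `n` players -/
def cols (l : List Sub) (m n : ℕ) : List ℕ :=
  (List.range n).foldl (fun c v => c ++ [pick l m c v]) []

/-- the place of `v` in its group -/
def pos (l : List Sub) (m v : ℕ) : ℕ :=
  ((l.find? fun e => decide (e.j = v)).map fun e => e.i / m).getD 0

variable {l : List Sub} {m n : ℕ}

theorem pick_lt (hm : 0 < m) (c : List ℕ) (v : ℕ) : pick l m c v < 10 * m := by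
  rw [pick]
  rcases h : (List.range (10 * m)).find? fun a => decide (a ∉ forb l m c v) with _ | a
  · exact Nat.mul_pos (by norm_num) hm
  · exact List.mem_range.1 (List.mem_of_find?_eq_some h)

theorem count_row (hm : 0 < m) (r : ℕ) : l.countP (fun e => decide (e.i / m = r)) ≤
    ∑ q ∈ range m, l.countP fun e => decide (e.i = r * m + q) := by
  induction l with
  | nil => simp
  | cons e l ih =>
    simp only [List.countP_cons, sum_add_distrib]
    refine add_le_add ih ?_
    split_ifs with h
    · refine le_trans ?_ (single_le_sum (f := fun q => if decide (e.i = r * m + q) = true then 1 else 0)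
        (fun _ _ => Nat.zero_le _) (mem_range.2 (Nat.mod_lt e.i hm)))
      rw [if_pos]
      rw [decide_eq_true_iff] at h ⊢
      rw [← h, Nat.div_add_mod']
    · exact Nat.zero_le _

theorem pick_free (hm : 0 < m) (hd : ∀ p, l.countP (fun e => decide (e.i = p ∨ e.j = p)) ≤ 3)
    (c : List ℕ) (v : ℕ) : pick l m c v ∉ forb l m c v := by
  have h1 : (forb l m c v).length ≤ 3 * (m * 3) := by
    rw [forb, List.length_flatMap]
    refine (List.sum_le_card_nsmul _ (m * 3) fun k hk => ?_).trans ?_
    · obtain ⟨e, -, rfl⟩ := List.mem_map.1 hk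
      rw [List.length_map, ← List.countP_eq_length_filter]
      refine (count_row hm _).trans ((sum_le_card_nsmul _ _ 3 fun q _ => ?_).trans (by simp))
      exact (List.countP_mono_left fun e _ he => by simp_all).trans (hd (e.i / m * m + q))
    · rw [List.length_map, ← List.countP_eq_length_filter, smul_eq_mul]
      exact Nat.mul_le_mul_right _ ((List.countP_mono_left fun e _ he => by simp_all).trans (hd v))
  obtain ⟨a, h2, h3⟩ := exists_mem_notMem_of_card_lt_card (s := (forb l m c v).toFinset)
    (t := range (10 * m)) ((List.toFinset_card_le _).trans_lt (by rw [card_range]; omega))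
  rw [pick]
  rcases h : (List.range (10 * m)).find? fun a => decide (a ∉ forb l m c v) with _ | b
  · have := List.find?_eq_none.1 h a (List.mem_range.2 (mem_range.1 h2))
    simp_all
  · simpa using List.find?_some h

theorem length_cols (k : ℕ) : (cols l m k).length = k := by
  rw [cols, Vale.Agent.P330.length_foldl_snoc (pick l m)]
  simp

theorem cols_succ (k : ℕ) : cols l m (k + 1) = cols l m k ++ [pick l m (cols l m k) k] := by
  rw [cols, List.range_succ, List.foldl_append]
  rfl

theorem cols_getD {k v : ℕ} (h : v < k) : (cols l m k).getD v 0 = pick l m (cols l m v) v := by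
  induction k with
  | zero => omega
  | succ k ih =>
    rw [cols_succ]
    rcases (Nat.le_of_lt_succ h).eq_or_lt with rfl | h1
    · rw [List.getD_append_right _ _ _ _ (length_cols v).le, length_cols, Nat.sub_self]
      rfl
    · rw [List.getD_append _ _ _ _ (by rwa [length_cols]), ih h1]

theorem cols_lt (hm : 0 < m) (k v : ℕ) : (cols l m k).getD v 0 < 10 * m := by
  by_cases h : v < k
  · rw [cols_getD h]
    exact pick_lt hm _ _
  · rw [List.getD_eq_default _ _ (by rw [length_cols]; omega)]
    omega

variable (G : Game)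

/-- the group of a player of the second side -/
def col (m v : ℕ) : ℕ := (cols G.subs m G.players).getD v 0

variable {G}

theorem col_inj (hm : 0 < m) {e e' : Sub} (he : e ∈ G.subs) (he' : e' ∈ G.subs)
    (h1 : e.i / m = e'.i / m) (h2 : col G m e.j = col G m e'.j) : e.j = e'.j := by
  have key : ∀ {e e' : Sub}, e ∈ G.subs → e' ∈ G.subs → e.i / m = e'.i / m → e'.j < e.j →
      col G m e.j ≠ col G m e'.j := fun {e e'} he he' h1 h3 h4 => by
    refine pick_free hm G.deg (cols G.subs m e.j) e.j ?_
    rw [← cols_getD (G.lt e he).2, ← col, h4, col, cols_getD (G.lt e' he').2, ← cols_getD h3]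
    exact List.mem_flatMap.2 ⟨e, by simp [he], List.mem_map.2 ⟨e', by simp [he', h1], rfl⟩⟩
  rcases lt_trichotomy e.j e'.j with h | h | h
  · exact absurd h2.symm (key he' he h1.symm h)
  · exact h
  · exact absurd h2 (key he he' h1 h)

theorem pos_spec {e : Sub} (he : e ∈ l) : ∃ e' ∈ l, e'.j = e.j ∧ pos l m e.j = e'.i / m := by
  rw [pos]
  rcases h : l.find? fun e' => decide (e'.j = e.j) with _ | e'
  · simpa using List.find?_eq_none.1 h e he
  · exact ⟨e', List.mem_of_find?_eq_some h, by simpa using List.find?_some h, by rw [h]; rfl⟩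

theorem loc_inj (hm : 0 < m) {e e' : Sub} (he : e ∈ G.subs) (he' : e' ∈ G.subs)
    (h1 : pos G.subs m e.j = pos G.subs m e'.j) (h2 : col G m e.j = col G m e'.j) : e.j = e'.j := by
  obtain ⟨a, a1, a2, a3⟩ := pos_spec (m := m) he
  obtain ⟨b, b1, b2, b3⟩ := pos_spec (m := m) he'
  rw [← a2, ← b2] at h2 ⊢
  exact col_inj hm a1 b1 (by rw [← a3, ← b3, h1]) h2

theorem card_fin (l : List Sub) (p : Sub → Prop) [DecidablePred p] :
    #{e : Fin l.length | p l[e.1]} = l.countP fun e => decide (p e) := by
  rw [card_filter, Fin.sum_univ_fun_getElem l fun e => if p e then 1 else 0]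
  induction l with
  | nil => rfl
  | cons e l ih => simp [List.countP_cons, ih, add_comm]

theorem cell_le (hm : 0 < m) (i j : ℕ) :
    #{e : Fin G.subs.length | G.subs[e.1].i / m = i ∧ col G m G.subs[e.1].j = j} ≤ 3 := by
  rw [card_fin G.subs fun e => e.i / m = i ∧ col G m e.j = j]
  by_cases h : ∃ e ∈ G.subs, e.i / m = i ∧ col G m e.j = j
  · obtain ⟨e, h1, h2, h3⟩ := h
    refine (List.countP_mono_left fun e' he' h4 => ?_).trans (G.deg e.j)
    rw [decide_eq_true_iff] at h4 ⊢
    exact Or.inr (col_inj hm he' h1 (h4.1.trans h2.symm) (h4.2.trans h3.symm))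
  · rw [List.countP_eq_zero.2 fun e he h1 => h ⟨e, he, of_decide_eq_true h1⟩]
    omega

/-- the size of the groups is large enough, and the payoffs are at most one -/
structure Ok (G : Game) (m : ℕ) : Prop where
  pos : 0 < m
  le : G.players ≤ m * m
  pay : ∀ e ∈ G.subs, ∀ s t, e.A s t ≤ 1 ∧ e.B s t ≤ 1

theorem Ok.row (h : Ok G m) {e : Sub} (he : e ∈ G.subs) : e.i / m < 10 * m :=
  (Nat.div_lt_of_lt_mul ((G.lt e he).1.trans_le h.le)).trans_le (by omega)

/-- the edges, seen from the first player -/
def Ok.edA (h : Ok G m) : Ed (Fin G.subs.length) (10 * m) where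
  gP e := G.subs[e.1].i / m
  pP e := G.subs[e.1].i % m
  gO e := col G m G.subs[e.1].j
  pO e := Vale.Agent.N330B.pos G.subs m G.subs[e.1].j
  w e := G.subs[e.1].A
  lt e := ⟨h.row (List.getElem_mem _), (Nat.mod_lt _ h.pos).trans_le (by omega), cols_lt h.pos _ _⟩
  le e s t := (h.pay _ (List.getElem_mem _) s t).1
  cell := cell_le h.pos

/-- the edges, seen from the second player -/
def Ok.edB (h : Ok G m) : Ed (Fin G.subs.length) (10 * m) where
  gP e := col G m G.subs[e.1].j
  pP e := Vale.Agent.N330B.pos G.subs m G.subs[e.1].j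
  gO e := G.subs[e.1].i / m
  pO e := G.subs[e.1].i % m
  w e := G.subs[e.1].B
  lt e := by
    obtain ⟨a, a1, -, a3⟩ := pos_spec (m := m) (List.getElem_mem e.2)
    exact ⟨cols_lt h.pos _ _, a3.trans_lt (h.row a1), h.row (List.getElem_mem _)⟩
  le e s t := (h.pay _ (List.getElem_mem _) s t).2
  cell i j := by simpa only [and_comm] using cell_le h.pos j i

/-! ### Regrets -/

theorem sum_regret (h : ∀ e ∈ l, e.i < n ∧ e.j < n) (z : ℕ → ℝ) (b : ℕ → Bool) :
    ∑ p ∈ range n, (util l z p (b p) - ((1 - z p) * util l z p false + z p * util l z p true)) =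
      (l.map fun e => gain e.A (b e.i) (z e.i) (z e.j) + gain e.B (b e.j) (z e.j) (z e.i)).sum := by
  induction l with
  | nil => simp [util_nil]
  | cons e l ih =>
    have h1 := h e List.mem_cons_self
    rw [List.map_cons, List.sum_cons, ← ih fun e he => h e (List.mem_cons_of_mem _ he),
      ← sum_ite_eq_of_mem _ _ (fun p => gain e.A (b p) (z p) (z e.j)) (mem_range.2 h1.1),
      ← sum_ite_eq_of_mem _ _ (fun p => gain e.B (b p) (z p) (z e.i)) (mem_range.2 h1.2),
      ← sum_add_distrib, ← sum_add_distrib]
    refine sum_congr rfl fun p _ => ?_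
    simp only [util_cons, gain]
    split_ifs <;> ring

variable {X : Type} [Fintype X] {c : Act X (10 * m)} {x y : X → ℝ} {lam : ℝ}

/-- the profile in the polymatrix game -/
noncomputable def prof (G : Game) (c : Act X (10 * m)) (x y : X → ℝ) (p : ℕ) : ℝ :=
  if Even p then c.cond x (p / m) (p % m) else c.cond y (col G m p) (pos G.subs m p)

theorem prof_mem (hx : Mix x) (hy : Mix y) (p : ℕ) : 0 ≤ prof G c x y p ∧ prof G c x y p ≤ 1 := by
  rw [prof]
  split_ifs
  exacts [c.cond_mem hx _ _, c.cond_mem hy _ _]

open Classical in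
theorem few_unhappy (h : Ok G m) (hA : Best c h.edA lam (lam ^ 2) x y)
    (hB : Best c h.edB lam (lam ^ 2) y x) (hx : Mix x) (hy : Mix y) (hl : 0 < lam) (hl' : lam ≤ 1) :
    (G.players : ℝ) ≤ (List.range G.players).countP
      (fun p => decide (G.Happy (1 / 20) (prof G c x y) p)) + 244000 * lam * m ^ 2 := by
  set z := prof G c x y with hz
  let b : ℕ → Bool := fun p => decide (util G.subs z p false ≤ util G.subs z p true)
  have hM : 0 < 10 * m := by have := h.pos; omega
  have h1 := gain_le hA hB hx hy hM hl hl' fun i q => b (i * m + q)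
  obtain ⟨a, ha⟩ : ∃ a : ℕ → ℕ → Bool, ∀ e ∈ G.subs,
      a (col G m e.j) (pos G.subs m e.j) = b e.j := by
    refine ⟨fun j q => if h : ∃ e ∈ G.subs, col G m e.j = j ∧ pos G.subs m e.j = q then
      b h.choose.j else false, fun e he => ?_⟩
    have k1 : ∃ e' ∈ G.subs, col G m e'.j = col G m e.j ∧
      pos G.subs m e'.j = pos G.subs m e.j := ⟨_, he, rfl, rfl⟩
    simp only [dif_pos k1]
    rw [loc_inj h.pos k1.choose_spec.1 he k1.choose_spec.2.2 k1.choose_spec.2.1]
  have h2 := gain_le hB hA hy hx hM hl hl' a
  have h3 := sum_regret G.lt z b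
  rw [← Fin.sum_univ_fun_getElem, sum_add_distrib] at h3
  have e1 : ∀ e : Fin G.subs.length,
      z G.subs[e.1].i = c.cond x (G.subs[e.1].i / m) (G.subs[e.1].i % m) := fun e =>
    if_pos (G.bip _ (List.getElem_mem _)).1
  have e2 : ∀ e : Fin G.subs.length, z G.subs[e.1].j =
      c.cond y (col G m G.subs[e.1].j) (pos G.subs m G.subs[e.1].j) := fun e =>
    if_neg (Nat.not_even_iff_odd.2 (G.bip _ (List.getElem_mem _)).2)
  have h4 := h3.trans_le (add_le_add ((sum_congr rfl fun e _ => by
      simp only [Ok.edA, Nat.div_add_mod']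
      rw [← e1, ← e2]).trans_le h1) ((sum_congr rfl fun e _ => by
      simp only [Ok.edB]
      rw [← e1, ← e2, ha _ (List.getElem_mem _)]).trans_le h2))
  have h5 := card_filter_add_card_filter_not (s := range G.players) (G.Happy (1 / 20) z)
  rw [card_range] at h5
  have h6 : (#{p ∈ range G.players | ¬ G.Happy (1 / 20) z p} : ℝ) * (1 / 20) ≤
      61 * lam * (10 * m : ℕ) ^ 2 + 61 * lam * (10 * m : ℕ) ^ 2 := by
    refine le_trans ?_ h4
    rw [← nsmul_eq_mul, ← sum_const, sum_filter]
    refine sum_le_sum fun p _ => ?_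
    have k1 : 0 ≤ z p ∧ z p ≤ 1 := prof_mem hx hy p
    have k2 : ∀ s, util G.subs z p s ≤ util G.subs z p (b p) := fun s => by
      by_cases k3 : util G.subs z p false ≤ util G.subs z p true
      · rw [show b p = true from decide_eq_true k3]
        cases s
        exacts [k3, le_rfl]
      · rw [show b p = false from decide_eq_false k3]
        cases s
        exacts [le_rfl, (not_le.1 k3).le]
    split_ifs with k4
    · nlinarith [k2 true, k2 false]
    · obtain ⟨s, hs⟩ := not_forall.1 k4
      linarith [k2 s, not_le.1 hs]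
  have h7 := congrArg (Nat.cast (R := ℝ)) h5
  rw [countP_range]
  push_cast at h6 h7 ⊢
  nlinarith

end Vale.Agent.N330B
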