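import Vale.Agent.P330.Defs
import Mathlib.Algebra.BigOperators.Fin
import Mathlib.Algebra.Order.Ring.Rat
import Mathlib.Data.Rat.Cast.Defs
import Mathlib.Data.Nat.Sqrt

/-!
P330, third hand-in: two-player games, approximate Nash equilibria, running times.
-/

namespace Vale.Agent.N330B

open Vale.Agent.P330 Vale.Agent.Lib.NP

/-- A two-player game with `n ≥ 1` actions for each player and rational payoffs in `[0, 1]`: if the
actions are `i` and `j`, then the first player gets `A i j` and the second one gets `B i j`. -/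
structure Bimatrix where
  n : ℕ
  pos : 0 < n
  A : Fin n → Fin n → ℚ≥0
  B : Fin n → Fin n → ℚ≥0
  le_one : ∀ i j, A i j ≤ 1 ∧ B i j ≤ 1

/-- The code of a game: the rows of `A` and the rows of `B`. -/
def Bimatrix.code (G : Bimatrix) : List Bool :=
  pairW (listW (List.ofFn fun i => ratsW (List.ofFn (G.A i))))
    (listW (List.ofFn fun i => ratsW (List.ofFn (G.B i))))

/-- The pair `(x, y)` of rational mixed strategies is an `ε`-approximate Nash equilibrium. -/
def Bimatrix.Nash (G : Bimatrix) (ε : ℝ) (x y : Fin G.n → ℚ≥0) : Prop :=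
  ∑ i, x i = 1 ∧ ∑ j, y j = 1 ∧
    (∀ i', ∑ j, (G.A i' j * y j : ℝ) ≤ ∑ i, ∑ j, (x i * G.A i j * y j : ℝ) + ε) ∧
    ∀ j', ∑ i, (x i * G.B i j' : ℝ) ≤ ∑ i, ∑ j, (x i * G.B i j * y j : ℝ) + ε

/-- The code of a pair of mixed strategies. -/
def profW {n : ℕ} (x y : Fin n → ℚ≥0) : List Bool :=
  pairW (ratsW (List.ofFn x)) (ratsW (List.ofFn y))

/-- Started with the word `w`, the Turing machine `M` halts within `t` steps with output `v`. -/
def Outputs (M : Turing.TM2ComputableAux Bool Bool) (w v : List Bool) (t : ℕ) : Prop :=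
  Nonempty (Turing.TM2OutputsInTime M.tm (w.map M.inputAlphabet.symm)
    (some (v.map M.outputAlphabet.symm)) t)

/-- On the code of the game `G` the machine `M` outputs an `ε`-equilibrium within `t` steps. -/
def Finds (M : Turing.TM2ComputableAux Bool Bool) (ε : ℝ) (G : Bimatrix) (t : ℕ) : Prop :=
  ∃ x y, G.Nash ε x y ∧ Outputs M G.code (profW x y) t

/-- On the code of the instance `I` the machine `M` outputs a solution within `t` steps. -/
def Solves (M : Turing.TM2ComputableAux Bool Bool) (I : EOL) (t : ℕ) : Prop :=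
  ∃ v, I.Solution v ∧ Outputs M I.code v t

/-- The number `2 ^ (⌊√N⌋ ⌊log₂ N⌋ ^ c)`. -/
def bnd (c N : ℕ) : ℕ := 2 ^ (N.sqrt * Nat.log 2 N ^ c)

/-- The number `L ^ (a + ⌊log₂ L⌋ / ⌊log₂ ⌊log₂ L⌋⌋ ^ e)` (division with rounding down). -/
def quasi (a e L : ℕ) : ℕ := L ^ (a + Nat.log 2 L / Nat.log 2 (Nat.log 2 L) ^ e)

end Vale.Agent.N330B
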