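import Vale.Agent.N330B.Col
import Vale.Agent.N330B.Defs

/-!
P330, third hand-in: the payoff matrices of the repeated game, and the reduction.
-/

namespace Vale.Agent.N330B

open Finset Vale.Agent.N330 Vale.Agent.P330 Vale.Agent.Lib.NP
open Vale.Agent.Lib.PolyTime hiding C P
open Vale.Agent.Lib.Dep

/-- a bit of the number of an action -/
def bit (M k p : ℕ) : Bool := (k / M).testBit p

/-- the numbering of the actions -/
def act {K M : ℕ} (hM : 0 < M) (hK : M * 2 ^ (2 * M) ≤ K) : Act (Fin K) M where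
  g k := k % M
  α k := bit M k
  S k j := bit M k (M + j)
  lt k := Nat.mod_lt _ hM
  ex i hi a s := by
    obtain ⟨b, h1, h2⟩ : ∃ b < 2 ^ (2 * M), ∀ p < 2 * M,
        b.testBit p = if p < M then a p else s (p - M) :=
      ⟨_, Nat.ofBits_lt_two_pow fun p : Fin (2 * M) => if p.1 < M then a p else s (p - M),
        fun p hp => Nat.testBit_ofBits_lt _ p hp⟩
    have h3 : (b * M + i) / M = b := by
      rw [add_comm, Nat.add_mul_div_right _ _ hM, Nat.div_eq_of_lt hi, zero_add]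
    refine ⟨⟨b * M + i, lt_of_lt_of_le ?_ hK⟩, by simp [Nat.mod_eq_of_lt hi], fun p hp => ?_,
      fun j hj => ?_⟩
    · nlinarith [Nat.mul_le_mul_right M (Nat.succ_le_of_lt h1)]
    · simp only [bit, h3, h2 p (by omega), if_pos hp]
    · simp only [bit, h3, h2 (M + j) (by omega), if_neg (Nat.not_lt.2 (Nat.le_add_right M j)),
        Nat.add_sub_cancel_left]

/-- the data of an edge: two groups and places, and four payoffs in sixths -/
abbrev Dat : Type := (ℕ × ℕ) × (ℕ × ℕ) × List ℕ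

/-- the payoff from the edges, in sixths -/
def wsum (d : List Dat) (M k l : ℕ) : ℕ :=
  (d.map fun e => if e.1.1 = k % M ∧ e.2.1.1 = l % M then
    e.2.2.getD (2 * (bit M k e.1.2).toNat + (bit M l e.2.1.2).toNat) 0 else 0).sum

/-- the size of the chosen set of groups -/
def cnt (M k : ℕ) : ℕ := ((List.range M).map fun j => (bit M k (M + j)).toNat).sum

/-- the normalized payoff -/
def ent (L : ℕ) (d : List Dat) (M k l : ℕ) : ℚ≥0 :=
  ((M * wsum d M k l + 6 * L * (M * (bit M k (M + l % M)).toNat + cnt M l + 2 * M -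
    (cnt M k + M * (bit M l (M + k % M)).toNat)) : ℕ) : ℚ≥0) / (30 * L * M : ℕ)

/-- the number of sixths -/
def six (q : ℚ≥0) : ℕ := 6 * q.num / q.den

theorem six_div (k : ℕ) : six ((k : ℚ≥0) / 6) = k := by
  have h := NNRat.num_div_den ((k : ℚ≥0) / 6)
  have h0 := ((k : ℚ≥0) / 6).den_pos
  rw [div_eq_div_iff (by exact_mod_cast h0.ne') (by norm_num)] at h
  exact Nat.div_eq_of_eq_mul_left h0 (by rw [mul_comm]; exact_mod_cast h)

theorem cnt_eq (M k : ℕ) : cnt M k = ∑ j ∈ range M, (bit M k (M + j)).toNat := rfl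

theorem cnt_le (M k : ℕ) : cnt M k ≤ M :=
  (sum_le_card_nsmul (range M) _ 1 fun _ _ => Bool.toNat_le _).trans (by simp)

/-- the list describes the edges -/
def Desc {M : ℕ} {l : List Sub} (d : Ed (Fin l.length) M) (F : Sub → Dat) : Prop :=
  ∀ e : Fin l.length, (F l[e.1]).1 = (d.gP e, d.pP e) ∧ (F l[e.1]).2.1 = (d.gO e, d.pO e) ∧
    ∀ s t : Bool, (((F l[e.1]).2.2.getD (2 * s.toNat + t.toNat) 0 : ℕ) : ℝ) = 6 * d.w e s t

section Ent

variable {K M L : ℕ} (hM : 0 < M) (hK : M * 2 ^ (2 * M) ≤ K) {l : List Sub}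
  {d : Ed (Fin l.length) M} {F : Sub → Dat}

theorem ent_eq (h : Desc d F) (hL : 0 < L) (k k' : Fin K) :
    (ent L (l.map F) M k k' : ℝ) = (pay (act hM hK) d (1 / L) k k' + 2) / 5 := by
  have h1 : (wsum (l.map F) M k k' : ℝ) = 6 * main (act hM hK) d k k' := by
    rw [wsum, List.map_map, ← Fin.sum_univ_fun_getElem, main, mul_sum, Nat.cast_sum]
    refine sum_congr rfl fun e _ => ?_
    obtain ⟨h1, h2, h3⟩ := h e
    rw [Function.comp_apply]
    generalize F l[e.1] = a at h1 h2 h3 ⊢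
    simp only [h1, h2]
    by_cases h4 : d.gP e = k % M ∧ d.gO e = k' % M
    · rw [if_pos h4, h3]
      exact congrArg _ (if_pos h4).symm
    · rw [if_neg h4, Nat.cast_zero]
      exact (mul_eq_zero_of_right _ (if_neg h4)).symm
  have h2 := cnt_le M k
  have h3 := Nat.mul_le_mul_left M (Bool.toNat_le (bit M k' (M + k % M)))
  have h4 : (M : ℝ) ≠ 0 := by positivity
  have h5 : (L : ℝ) ≠ 0 := by positivity
  rw [ent, NNRat.cast_div, NNRat.cast_natCast, NNRat.cast_natCast, Nat.cast_add, Nat.cast_mul,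
    Nat.cast_mul, Nat.cast_sub (by omega), h1, pay]
  simp only [hid, act, cnt_eq]
  push_cast
  field_simp
  ring

include hM hK in
theorem ent_le (h : Desc d F) (hL : 3 ≤ L) (k k' : Fin K) : ent L (l.map F) M k k' ≤ 1 := by
  have h0 : ∀ (s : ℕ → Bool) (j : ℕ), -1 ≤ hid M s j ∧ hid M s j ≤ 1 := fun s j => by
    have h1 : ((s j).toNat : ℝ) ≤ 1 := by exact_mod_cast Bool.toNat_le _
    have h2 : (∑ i ∈ range M, ((s i).toNat : ℝ)) / M ≤ 1 :=
      div_le_one_of_le₀ ((sum_le_card_nsmul (range M) _ 1 fun i _ => by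
        exact_mod_cast Bool.toNat_le _).trans (by simp)) (by positivity)
    have h3 : 0 ≤ (∑ i ∈ range M, ((s i).toNat : ℝ)) / M := by positivity
    rw [hid]
    constructor <;> linarith [(Nat.cast_nonneg (s j).toNat : (0 : ℝ) ≤ _)]
  have h1 := ent_eq hM hK h (by omega : 0 < L) k k'
  have h2 : (3 : ℝ) ≤ L := by exact_mod_cast hL
  have h3 : 1 / (L : ℝ) * main (act hM hK) d k k' ≤ 1 := by
    rw [one_div, inv_mul_le_iff₀ (by linarith)]
    linarith [(main_mem (act hM hK) d k k').2]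
  rw [← NNRat.cast_le (K := ℝ), h1, pay, NNRat.cast_one]
  linarith [(h0 ((act hM hK).S k) ((act hM hK).g k')).2, (h0 ((act hM hK).S k') ((act hM hK).g k)).1]

end Ent

theorem best_of {X E : Type} [Fintype X] [Fintype E] {M : ℕ} {c : Act X M} {d : Ed E M}
    {lam ε : ℝ} {x y : X → ℝ} (hx : Mix x) (hy : Mix y) {A : X → X → ℝ}
    (hA : ∀ k l, A k l = (pay c d lam k l + 2) / 5)
    (h : ∀ k, ∑ l, A k l * y l ≤ EE x y A + ε / 5) : Best c d lam ε x y := fun k => by
  have h1 : ∀ k, ∑ l, A k l * y l = (∑ l, pay c d lam k l * y l + 2) / 5 := fun k => by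
    rw [← mul_one 2, ← hy.2, mul_sum, ← sum_add_distrib, sum_div]
    exact sum_congr rfl fun l _ => by rw [hA]; ring
  have h2 : EE x y A = (EE x y (pay c d lam) + 2) / 5 := by
    simp only [EE, mul_assoc, ← mul_sum, h1]
    conv_rhs => rw [← mul_one 2, ← hx.2, mul_sum, ← sum_add_distrib, sum_div]
    exact sum_congr rfl fun l _ => by ring
  linarith [h k, h1 k]

/-- the edges, seen from the first player -/
def fA (l : List Sub) (m n : ℕ) (e : Sub) : Dat :=
  ((e.i / m, e.i % m), ((cols l m n).getD e.j 0, pos l m e.j), (e.pay.take 4).map six)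

/-- the edges, seen from the second player -/
def fB (l : List Sub) (m n : ℕ) (e : Sub) : Dat :=
  (((cols l m n).getD e.j 0, pos l m e.j), (e.i / m, e.i % m), (e.pay.drop 4).map six)

theorem desc {S : PS} {hS : S.WF} {m : ℕ} (h : Ok (S.game hS) m) :
    Desc h.edA (fA S.subs m (S.M * 6)) ∧ Desc h.edB (fB S.subs m (S.M * 6)) := by
  have key : ∀ e ∈ S.subs, ∀ s t : Bool,
      ((((e.pay.take 4).map six).getD (2 * s.toNat + t.toNat) 0 : ℕ) : ℝ) = 6 * e.A s t ∧
      ((((e.pay.drop 4).map six).getD (2 * s.toNat + t.toNat) 0 : ℕ) : ℝ) = 6 * e.B s t := by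
    intro e he s t
    obtain ⟨u, -, he⟩ := List.mem_flatMap.1 he
    obtain ⟨i, j, A, A', rfl, -⟩ := mem_sl he
    cases s <;> cases t <;> simp [Sub.pay, mkS, six_div, mul_div_cancel₀]
  exact ⟨fun e => ⟨rfl, rfl, fun s t => (key _ (List.getElem_mem e.2) s t).1⟩,
    fun e => ⟨rfl, rfl, fun s t => (key _ (List.getElem_mem e.2) s t).2⟩⟩

/-- a square matrix as a list of rows -/
def mat (K : ℕ) (f : ℕ → ℕ → ℚ≥0) : List (List ℚ≥0) :=
  (List.range K).map fun k => (List.range K).map (f k)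

theorem ofFn_range {κ : Type} (K : ℕ) (f : ℕ → κ) :
    List.ofFn (fun i : Fin K => f i) = (List.range K).map f :=
  List.ext_getElem (by simp) (by simp)

theorem code_mat (K : ℕ) (f : ℕ → ℕ → ℚ≥0) :
    listW (List.ofFn fun i : Fin K => ratsW (List.ofFn fun j : Fin K => f i j)) =
      enc (mat K f) := by
  simp only [ofFn_range, ratsW_eq]
  rw [ofFn_range K fun i => enc ((List.range K).map (f i)), ← listW_eq, mat, List.map_map]
  rfl

/-- a sum of probabilities, times the product of the denominators -/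
def nsum (y : List ℚ≥0) (P : ℕ → Bool) : ℕ :=
  ((List.range y.length).map fun k => bif P k then
    (y.getD k 0).num * ((y.map NNRat.den).prod / (y.getD k 0).den) else 0).sum

theorem nsum_eq {K : ℕ} (y : Fin K → ℚ≥0) (P : ℕ → Bool) : (nsum (List.ofFn y) P : ℝ) =
    ((List.ofFn y).map NNRat.den).prod * ∑ k : Fin K, if P k then (y k : ℝ) else 0 := by
  rw [nsum, List.length_ofFn, ← ofFn_range, List.sum_ofFn, mul_sum, Nat.cast_sum]
  refine sum_congr rfl fun k _ => ?_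
  have h1 : (List.ofFn y).getD k 0 = y k := by simp
  have h2 : (y k).den ∣ ((List.ofFn y).map NNRat.den).prod :=
    List.dvd_prod (List.mem_map_of_mem (List.mem_ofFn.2 ⟨k, rfl⟩))
  rw [h1]
  cases P k
  · simp
  · rw [cond_true, if_pos rfl, Nat.cast_mul, Nat.cast_div h2 (by exact_mod_cast (y k).den_pos.ne'),
      NNRat.cast_def]
    ring

/-- the rounded conditional probability -/
def rnd (M : ℕ) (y : List ℚ≥0) (i p : ℕ) : Bool :=
  decide (nsum y (fun k => decide (k % M = i)) <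
    2 * nsum y fun k => decide (k % M = i) && bit M k p)

theorem rnd_iff {K M : ℕ} (hM : 0 < M) (hK : M * 2 ^ (2 * M) ≤ K) {y : Fin K → ℚ≥0}
    (hy : Mix fun k => (y k : ℝ)) (i p : ℕ) :
    rnd M (List.ofFn y) i p = true ↔ 1 / 2 < (act hM hK).cond (fun k => (y k : ℝ)) i p := by
  have h0 : (0 : ℝ) < ((List.ofFn y).map NNRat.den).prod := by
    exact_mod_cast List.prod_pos fun a ha => by
      obtain ⟨q, -, rfl⟩ := List.mem_map.1 ha
      exact q.den_pos
  have h1 := (act hM hK).one_le hy i p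
  rw [rnd, decide_eq_true_iff, ← Nat.cast_lt (α := ℝ), Nat.cast_mul, nsum_eq, nsum_eq,
    mul_left_comm, mul_lt_mul_iff_right₀ h0, Act.cond]
  simp only [Bool.and_eq_true, decide_eq_true_eq, Nat.cast_ofNat]
  change (act hM hK).mass (fun k => (y k : ℝ)) i < 2 * ∑ k, (if (act hM hK).g k = i ∧
    (act hM hK).α k p = true then (y k : ℝ) else 0) ↔ _
  rcases (h1.1.trans h1.2).eq_or_lt with h | h
  · rw [← h, le_antisymm (h1.2.trans h.ge) h1.1]
    norm_num
  · rw [div_lt_div_iff₀ (by norm_num) h, one_mul, mul_comm]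

section PT

variable {α : Type} [Enc α]

theorem dpt_ratDiv {a b : α → ℕ} (ha : DPT a) (hb : DPT b) (h0 : ∀ x, 0 < b x) :
    DPT fun x => ((a x : ℕ) : ℚ≥0) / (b x : ℕ) := by
  have h1 : DPT fun x => (a x / (a x).gcd (b x), b x / (a x).gcd (b x)) := by fun_prop
  refine h1.of_enc fun x => ?_
  have h2 := Nat.gcd_pos_of_pos_right (a x) (h0 x)
  have h3 : ((a x / (a x).gcd (b x) : ℕ) : ℤ).natAbs.Coprime
      ((b x / (a x).gcd (b x) : ℕ) : ℤ).natAbs := Nat.coprime_div_gcd_div_gcd h2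
  have h4 : 0 < b x / (a x).gcd (b x) := Nat.div_pos (Nat.gcd_le_right _ (h0 x)) h2
  have h5 : ((((a x : ℕ) : ℚ≥0) / (b x : ℕ) : ℚ≥0) : ℚ) =
      ((a x / (a x).gcd (b x) : ℕ) : ℤ) / ((b x / (a x).gcd (b x) : ℕ) : ℤ) := by
    rw [Int.cast_natCast, Int.cast_natCast, Nat.cast_div_div_div_cancel_right
      (Nat.gcd_dvd_right _ _) (Nat.gcd_dvd_left _ _)]
    simp
  rw [enc_rat, NNRat.num, NNRat.den, h5, Rat.num_div_eq_of_coprime (by exact_mod_cast h4) h3,
    Int.natAbs_natCast, Int.natCast_inj.1 (Rat.den_div_eq_of_coprime (by exact_mod_cast h4) h3)]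

@[fun_prop]
theorem dpt_bit {M k p : α → ℕ} (hM : DPT M) (hk : DPT k) (hp : DPT p) :
    DPT fun a => bit (M a) (k a) (p a) := (hk.natDiv hM).testBit hp

@[fun_prop]
theorem dpt_toNat {b : α → Bool} (hb : DPT b) : DPT fun a => (b a).toNat :=
  dpt_finComp Bool.toNat hb

theorem dpt_ent (L : ℕ) (hL : 0 < L) {d : α → List Dat} {M k l : α → ℕ} (hd : DPT d) (hM : DPT M)
    (hb : PBd M) (h0 : ∀ a, 0 < M a) (hk : DPT k) (hl : DPT l) :
    DPT fun a => ent L (d a) (M a) (k a) (l a) := by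
  refine dpt_ratDiv ?_ (by fun_prop) fun a => by have := h0 a; positivity
  simp only [wsum, cnt]
  fun_prop

theorem dpt_sub {e : α → Sub} (h : DPT e) : DPT fun a => ((e a).i, (e a).j, (e a).pay) :=
  h.of_enc fun _ => enc_sub _

@[fun_prop]
theorem dpt_i {e : α → Sub} (h : DPT e) : DPT fun a => (e a).i := (dpt_sub h).fst

@[fun_prop]
theorem dpt_j {e : α → Sub} (h : DPT e) : DPT fun a => (e a).j := (dpt_sub h).snd.fst

@[fun_prop]
theorem dpt_pay {e : α → Sub} (h : DPT e) : DPT fun a => (e a).pay := (dpt_sub h).snd.snd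

variable {l : α → List Sub} {m n : α → ℕ}

theorem dpt_cols (hl : DPT l) (hm : DPT m) (hb : PBd m) (h0 : ∀ a, 0 < m a) (hn : DPT n)
    (hb' : PBd n) : DPT fun a => cols (l a) (m a) (n a) := by
  refine DPT.foldl (hn.range hb') DPT.nil ?_ (b := fun a => n a * (2 * (10 * m a) + 1))
    (by fun_prop) fun a i => ?_
  · simp only [pick, forb]
    fun_prop
  · rw [List.take_range, ← cols]
    refine (esize_list_le (B := 10 * m a) fun x hx => (esize_nat_le_self _).trans ?_).trans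
      (Nat.mul_le_mul_right _ ((length_cols _).le.trans (min_le_right _ _)))
    obtain ⟨k, hk, rfl⟩ := List.getElem_of_mem hx
    rw [← List.getD_eq_getElem _ 0 hk]
    exact (cols_lt (h0 a) _ _).le

@[fun_prop]
theorem dpt_pos {v : α → ℕ} (hl : DPT l) (hm : DPT m) (hv : DPT v) :
    DPT fun a => pos (l a) (m a) (v a) :=
  DPT.optGetD (dpt_optMap (f := fun a (e : Sub) => e.i / m a) (by fun_prop) (by fun_prop))
    (DPT.const 0)

theorem dpt_dat (hl : DPT l) (hm : DPT m) (hb : PBd m) (h0 : ∀ a, 0 < m a) (hn : DPT n)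
    (hb' : PBd n) : (DPT fun a => (l a).map (fA (l a) (m a) (n a))) ∧
      DPT fun a => (l a).map (fB (l a) (m a) (n a)) := by
  have h1 := dpt_cols hl hm hb h0 hn hb'
  obtain ⟨c, hc⟩ : ∃ c : α → List ℕ, ∀ a, cols (l a) (m a) (n a) = c a := ⟨_, fun _ => rfl⟩
  constructor <;> refine hl.map ?_ <;> simp only [fA, fB, hc] at h1 ⊢ <;> unfold six <;> fun_prop

theorem dpt_nsum {y : α → List ℚ≥0} {P : α → ℕ → Bool} (hy : DPT y)
    (hP : DPT fun p : α × ℕ => P p.1 p.2) : DPT fun a => nsum (y a) (P a) := by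
  have h1 : DPT fun a => ((y a).map NNRat.den).prod :=
    DPT.ofPT (PT.prod (DPT.toPT (by fun_prop)))
  obtain ⟨Q, hQ⟩ : ∃ Q : α → ℕ, ∀ a, ((y a).map NNRat.den).prod = Q a := ⟨_, fun _ => rfl⟩
  simp only [nsum, hQ] at h1 ⊢
  exact DPT.natSum (DPT.map (by fun_prop) (DPT.cond (hP.comp
    (f := fun p : Σ a, {x // x ∈ List.range (y a).length} => (p.1, p.2.1)) (by fun_prop))
    (by fun_prop) (by fun_prop)))

@[fun_prop]
theorem dpt_rnd {y : α → List ℚ≥0} {M i p : α → ℕ} (hM : DPT M) (hy : DPT y) (hi : DPT i)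
    (hp : DPT p) : DPT fun a => rnd (M a) (y a) (i a) (p a) :=
  DPT.decide (DPr.lt (dpt_nsum hy (by fun_prop))
    ((DPT.const 2).natMul (dpt_nsum hy (by fun_prop))))

theorem dpt_mat {K : α → ℕ} {f : α → ℕ → ℕ → ℚ≥0} (hK : DPT K) (hb : PBd K)
    (hf : DPT fun p : α × ℕ × ℕ => f p.1 p.2.1 p.2.2) : DPT fun a => mat (K a) (f a) :=
  DPT.map (hK.range hb) (DPT.map (by fun_prop) (hf.comp (f := fun p : Σ q : Σ a,
    {x // x ∈ List.range (K a)}, {x // x ∈ List.range (K q.1)} => (p.1.1, p.1.2.1, p.2.1))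
    (by fun_prop)))

end PT

theorem size_le {n N l c : ℕ} (hN : 1 ≤ N) (hl : 2 ≤ l) (h : n ≤ N * l ^ c) :
    10 * (n.sqrt + 1) * 2 ^ (2 * (10 * (n.sqrt + 1))) ≤ 2 ^ (N.sqrt * l ^ (c + 7)) := by
  have h1 : 1 ≤ l ^ c := Nat.one_le_pow _ _ (by omega)
  have h2 : n.sqrt ≤ (N.sqrt + 1) * l ^ c := Nat.mul_self_le_mul_self_iff.1
    ((Nat.sqrt_le n).trans (h.trans (by
      nlinarith [Nat.mul_le_mul (Nat.lt_succ_sqrt N).le (Nat.le_mul_self (l ^ c))])))
  have h3 : 1 ≤ N.sqrt := Nat.sqrt_pos.2 hN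
  have h4 : 2 ^ 7 ≤ l ^ 7 := Nat.pow_le_pow_left hl 7
  refine (Nat.mul_le_mul_right _ Nat.lt_two_pow_self.le).trans ?_
  rw [← pow_add, pow_add l]
  refine Nat.pow_le_pow_right (by norm_num) ?_
  nlinarith [Nat.mul_le_mul h3 h1, Nat.mul_le_mul_right (l ^ c) h3,
    Nat.mul_le_mul_left (N.sqrt * l ^ c) h4]

/-- the game of a system -/
def bim {S : PS} {hS : S.WF} {m K L : ℕ} (ok : Ok (S.game hS) m)
    (hK : 10 * m * 2 ^ (2 * (10 * m)) ≤ K) (hL : 3 ≤ L) : Bimatrix where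
  n := K
  pos := lt_of_lt_of_le (by have := ok.pos; positivity) hK
  A k l := ent L (S.subs.map (fA S.subs m (S.M * 6))) (10 * m) k l
  B k l := ent L (S.subs.map (fB S.subs m (S.M * 6))) (10 * m) l k
  le_one k l := ⟨ent_le (by have := ok.pos; omega) hK (desc ok).1 hL k l,
    ent_le (by have := ok.pos; omega) hK (desc ok).2 hL l k⟩

theorem mix_of {K : ℕ} {x : Fin K → ℚ≥0} (h : ∑ i, x i = 1) : Mix fun k => (x k : ℝ) :=
  ⟨fun _ => NNRat.cast_nonneg _, by simp only [← NNRat.cast_sum, h, NNRat.cast_one]⟩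

theorem bim_sound {S : PS} {hS : S.WF} {m K L : ℕ} (ok : Ok (S.game hS) m)
    (hK : 10 * m * 2 ^ (2 * (10 * m)) ≤ K) (hL : 3 ≤ L) {x y : Fin K → ℚ≥0}
    (hn : (bim ok hK hL).Nash ((1 / L) ^ 2 / 5) x y) : ∃ P : ℕ → Bool → Prop,
      (∀ a b, P a b → rnd (10 * m) (List.ofFn y) ((cols S.subs m (S.M * 6)).getD (pn a) 0)
        (pos S.subs m (pn a)) = b) ∧ ((S.bad P).card : ℝ) ≤ 244000 * (1 / L) * m ^ 2 := by
  have k0 : 0 < 10 * m := by have := ok.pos; omega
  have l1 : (3 : ℝ) ≤ L := by exact_mod_cast hL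
  have hx := mix_of (x := x) hn.1
  have hy := mix_of (x := y) hn.2.1
  have hA := best_of hx hy (ent_eq k0 hK (desc ok).1 (by omega : 0 < L)) hn.2.2.1
  have hB := best_of (ε := (1 / L) ^ 2) hy hx (ent_eq k0 hK (desc ok).2 (by omega : 0 < L))
    fun k => by
      rw [EE_swap]
      exact (sum_congr rfl fun _ _ => mul_comm _ _).trans_le (hn.2.2.2 k)
  have h1 := few_unhappy ok hA hB hx hy (by positivity) (by
    rw [div_le_one (by linarith)]; linarith)
  set z := prof (S.game hS) (act k0 hK) (fun k => (x k : ℝ)) fun k => (y k : ℝ) with hz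
  have h2 := (Nat.cast_le (α := ℝ)).2 (S.card_bad_le' (γ := 1 / 10) (γ' := 1 / 4) (by norm_num)
    (x := z) (prof_mem hx hy) (H := (S.game hS).Happy (1 / 20) z) fun p hp =>
      ⟨hp.resp (prof_mem hx hy p) (by norm_num) (by norm_num),
        hp.resp (prof_mem hx hy p) (by norm_num) (by norm_num)⟩)
  refine ⟨fun a b => Val (1 / 10) b (z (pn a)), fun a b hb => ?_, ?_⟩
  · have h3 := rnd_iff k0 hK hy (col (S.game hS) m (pn a)) (pos S.subs m (pn a))
    rw [hz, prof, if_neg (by rw [Nat.even_iff, pn]; omega)] at hb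
    cases b
    · exact Bool.eq_false_iff.2 fun h4 => absurd (h3.1 h4) (not_lt.2 (le_trans hb (by norm_num)))
    · exact h3.2 (lt_of_lt_of_le (by norm_num) hb)
  · rw [show (S.game hS).players = S.M * 6 from rfl] at h1
    push_cast at h1 h2
    linarith

theorem dpt_decode {Dec : EOL × List Bool → List Bool} {n m : EOL → ℕ} {c : EOL → List ℕ}
    {l : EOL → List Sub} (h1 : DPT Dec) (h2 : DPT n) (h3 : PBd n) (h4 : DPT m) (h5 : DPT c)
    (h6 : DPT l) : DPT fun q : EOL × List ℚ≥0 × List ℚ≥0 => Dec (q.1, (List.range (2 * n q.1)).map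
      fun a => rnd (10 * m q.1) q.2.2 ((c q.1).getD (pn a) 0) (pos (l q.1) (m q.1) (pn a))) := by
  simp only [pn]
  fun_prop

theorem dpt_mats {L : ℕ} (hL : 0 < L) {m : EOL → ℕ} {d d' : EOL → List Dat} (m0 : ∀ I, 0 < m I)
    (m1 : DPT m) (m2 : PBd m) (h : DPT d) (h' : DPT d') : DPT fun q : EOL × Un =>
      (mat q.2.v (ent L (d q.1) (10 * m q.1)),
        mat q.2.v fun k l => ent L (d' q.1) (10 * m q.1) l k) := by
  have u1 : DPT fun q : EOL × Un => q.2.v := DPT.ofPT (PT.unVal PT.snd')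
  have u2 : PBd fun q : EOL × Un => q.2.v := PBd.unVal (A := ∅) PT.snd'
  have pe : ∀ {d : EOL → List Dat} {k l : (EOL × Un) × ℕ × ℕ → ℕ}, DPT d → DPT k → DPT l →
      DPT fun p => ent L (d p.1.1) (10 * m p.1.1) (k p) (l p) := fun hd hk hl =>
    dpt_ent L hL (by fun_prop) (by fun_prop) (by fun_prop)
      (fun p => by have := m0 p.1.1; omega) hk hl
  exact (dpt_mat u1 u2 (pe h DPT.id.snd.fst DPT.id.snd.snd)).pair
    (dpt_mat u1 u2 (pe h' DPT.id.snd.snd DPT.id.snd.fst))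

/-- The reduction to two-player games. -/
theorem matGoal : ∃ (ε : ℝ) (c : ℕ) (R D : Word → Word), 0 < ε ∧ FP ∅ R ∧ FP ∅ D ∧
    ∀ (I : EOL) (K : ℕ), 2 ^ (I.N.sqrt * Nat.log 2 I.N ^ c) ≤ K → ∃ G : Bimatrix, G.n = K ∧
      R (pairW I.code (List.replicate K true)) = G.code ∧
      ∀ x y, G.Nash ε x y → I.Solution (D (pairW I.code (profW x y))) := by
  obtain ⟨S, δ, Dec, h⟩ := psGoal
  have h0 := h.pos
  obtain ⟨L, hL⟩ := exists_nat_ge (max 3 (5856000 / δ))
  have l1 : (3 : ℝ) ≤ L := (le_max_left _ _).trans hL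
  have l2 : 3 ≤ L := by exact_mod_cast l1
  have l3 : 244000 * (1 / (L : ℝ)) * 24 ≤ δ := by
    rw [mul_one_div, div_mul_eq_mul_div, div_le_iff₀ (by linarith)]
    linarith [(div_le_iff₀ h0).1 ((le_max_right _ _).trans hL)]
  obtain ⟨c, hc⟩ := h.ql.mul (PL.const 6)
  have p1 : DPT fun I => (S I).subs :=
    DPT.flatMap (f := fun I t => sl ((S I).st t) (t * 6)) (h.m.range h.ql.pbd)
      (dpt_sl (h.st.comp (f := fun p : Σ I, {x // x ∈ List.range (S I).M} => (p.1, p.2.1))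
        (by fun_prop)) (by fun_prop))
  obtain ⟨m, hm⟩ : ∃ m : EOL → ℕ, ∀ I, m I = ((S I).M * 6).sqrt + 1 := ⟨_, fun _ => rfl⟩
  have n1 := h.m.natMul (DPT.const 6)
  have n2 := h.ql.pbd.mul (PBd.const 6)
  have m0 : ∀ I, 0 < m I := fun I => by rw [hm]; omega
  have m1 : DPT m := ((DPT.ofPT (Lib.PCP.pt_sqrt n1.toPT)).natAdd (DPT.const 1)).congr
    fun I => (hm I).symm
  have m2 : PBd m := (n2.add (PBd.const 1)).mono fun I => by
    rw [hm]; exact Nat.add_le_add_right (Nat.sqrt_le_self _) _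
  obtain ⟨p2, p3⟩ := dpt_dat p1 m1 m2 m0 n1 n2
  obtain ⟨R, hR, eR⟩ := dpt_mats (by omega : 0 < L) m0 m1 m2 p2 p3
  obtain ⟨D, hD, eD⟩ := PT.rawOfList
    (dpt_decode h.dec h.m h.ql.pbd m1 (dpt_cols p1 m1 m2 m0 n1 n2) p1).toPT
  refine ⟨(1 / L) ^ 2 / 5, c + 7, R, D, by positivity, hR, hD, fun I K hK => ?_⟩
  have k1 : 10 * m I * 2 ^ (2 * (10 * m I)) ≤ K := by
    rw [hm]
    exact (size_le (by have := I.size_le; omega) I.two_le_log (hc I)).trans hK
  have ok : Ok ((S I).game (h.wf I)) (m I) :=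
    ⟨m0 I, by rw [hm]; exact (Nat.lt_succ_sqrt _).le, (S I).pay_le⟩
  refine ⟨bim ok k1 l2, rfl, ?_, fun x y hn => ?_⟩
  · refine (congrArg R (congrFun₂ pairW_eq _ _)).trans ((eR (I, ⟨K⟩)).trans ?_)
    rw [enc_pair, ← code_mat, ← code_mat, ← pairW_eq]
    rfl
  obtain ⟨P, h1, h2⟩ := bim_sound ok k1 l2 hn
  rw [profW, pairW_eq, ratsW_eq, ratsW_eq]
  refine (congrArg I.Solution (eD (I, List.ofFn x, List.ofFn y))).mpr (h.sol I P _ h1 (h2.trans ?_))
  have h3 : m I ^ 2 ≤ 24 * (S I).M := by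
    have := Nat.sqrt_pos.2 (Nat.mul_pos (h.wf I).pos (by norm_num : 0 < 6))
    rw [hm]
    nlinarith [Nat.sqrt_le ((S I).M * 6)]
  have h4 : (m I : ℝ) ^ 2 ≤ 24 * (S I).M := by exact_mod_cast h3
  refine (mul_le_mul_of_nonneg_left h4 (by positivity)).trans ?_
  rw [← mul_assoc]
  exact mul_le_mul_of_nonneg_right l3 (Nat.cast_nonneg _)

end Vale.Agent.N330B
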