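import Vale.Agent.N330.Game

/-!
P330, third hand-in: birthday repetition. Each of two players chooses a group of players of a
polymatrix game, actions for the members of the group, and a set of groups of the opponent.
-/

namespace Vale.Agent.N330B

open Finset Vale.Agent.N330

/-- actions which consist of a group, actions for the places of the group, and a set of groups -/
structure Act (X : Type) (M : ℕ) where
  g : X → ℕ
  α : X → ℕ → Bool
  S : X → ℕ → Bool
  lt : ∀ k, g k < M
  ex : ∀ i < M, ∀ a s : ℕ → Bool, ∃ k, g k = i ∧ (∀ p < M, α k p = a p) ∧ ∀ j < M, S k j = s j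

/-- edges, seen from one of the two players -/
structure Ed (E : Type) [Fintype E] (M : ℕ) where
  gP : E → ℕ
  pP : E → ℕ
  gO : E → ℕ
  pO : E → ℕ
  w : E → Bool → Bool → ℚ≥0
  lt : ∀ e, gP e < M ∧ pP e < M ∧ gO e < M
  le : ∀ e s t, w e s t ≤ 1
  cell : ∀ i j, #{e | gP e = i ∧ gO e = j} ≤ 3

variable {X E E' : Type} [Fintype X] [Fintype E] [Fintype E'] {M : ℕ} (c : Act X M) (d : Ed E M)
  {x y : X → ℝ} {lam ε : ℝ}

/-- mixed strategies -/
def Mix (x : X → ℝ) : Prop := (∀ k, 0 ≤ x k) ∧ ∑ k, x k = 1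

/-- expected value -/
def EE (x y : X → ℝ) (F : X → X → ℝ) : ℝ := ∑ k, ∑ l, x k * F k l * y l

/-- the probability of a group -/
noncomputable def Act.mass (x : X → ℝ) (i : ℕ) : ℝ := ∑ k, if c.g k = i then x k else 0

/-- the conditional probability of the action `true` at a place -/
noncomputable def Act.cond (x : X → ℝ) (i p : ℕ) : ℝ :=
  (∑ k, if c.g k = i ∧ c.α k p = true then x k else 0) / c.mass x i

/-- the distance from the uniform distribution -/
noncomputable def Act.dist (x : X → ℝ) : ℝ := ∑ i ∈ range M, |c.mass x i - 1 / M|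

/-- the payoff for finding the group of the opponent -/
noncomputable def hid (M : ℕ) (s : ℕ → Bool) (j : ℕ) : ℝ :=
  (s j).toNat - (∑ i ∈ range M, ((s i).toNat : ℝ)) / M

/-- the payoff from the edges -/
noncomputable def main (k l : X) : ℝ :=
  ∑ e, if d.gP e = c.g k ∧ d.gO e = c.g l then (d.w e (c.α k (d.pP e)) (c.α l (d.pO e)) : ℝ) else 0

/-- the payoff -/
noncomputable def pay (lam : ℝ) (k l : X) : ℝ :=
  lam * main c d k l + hid M (c.S k) (c.g l) - hid M (c.S l) (c.g k)

/-- no deviation gains more than `ε` -/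
def Best (lam ε : ℝ) (x y : X → ℝ) : Prop :=
  ∀ k, ∑ l, pay c d lam k l * y l ≤ EE x y (pay c d lam) + ε

theorem EE_pay (φ : X → X) : EE x y (fun k l => pay c d lam (φ k) l) =
    lam * EE x y (fun k l => main c d (φ k) l) + EE x y (fun k l => hid M (c.S (φ k)) (c.g l)) -
      EE x y fun k l => hid M (c.S l) (c.g (φ k)) := by
  simp only [EE, pay, mul_sum, ← sum_add_distrib, ← sum_sub_distrib]
  exact sum_congr rfl fun k _ => sum_congr rfl fun l _ => by ring

theorem EE_right (hx : Mix x) (f : X → ℝ) : EE x y (fun _ l => f l) = ∑ l, y l * f l := by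
  rw [EE, sum_comm]
  refine sum_congr rfl fun l _ => ?_
  rw [← sum_mul, ← sum_mul, hx.2]
  ring

theorem EE_mono (hx : Mix x) (hy : Mix y) {F G : X → X → ℝ} (h : ∀ k l, F k l ≤ G k l) :
    EE x y F ≤ EE x y G :=
  sum_le_sum fun k _ => sum_le_sum fun l _ =>
    mul_le_mul_of_nonneg_right (mul_le_mul_of_nonneg_left (h k l) (hx.1 k)) (hy.1 l)

theorem EE_const (hx : Mix x) (hy : Mix y) (a : ℝ) : EE x y (fun _ _ => a) = a := by
  rw [EE_right hx, ← sum_mul, hy.2, one_mul]

theorem EE_swap (F : X → X → ℝ) : EE x y F = EE y x fun l k => F k l := by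
  rw [EE, sum_comm]
  exact sum_congr rfl fun k _ => sum_congr rfl fun l _ => by ring

variable {c d} in
theorem Best.dev (h : Best c d lam ε x y) (hx : Mix x) (φ : X → X) :
    EE x y (fun k l => pay c d lam (φ k) l) ≤ EE x y (pay c d lam) + ε := by
  calc _ = ∑ k, x k * ∑ l, pay c d lam (φ k) l * y l := by simp only [EE, mul_sum, mul_assoc]
    _ ≤ ∑ k, x k * (EE x y (pay c d lam) + ε) :=
      sum_le_sum fun k _ => mul_le_mul_of_nonneg_left (h _) (hx.1 k)
    _ = _ := by rw [← sum_mul, hx.2, one_mul]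

theorem Act.sum_g (x : X → ℝ) (h : ℕ → ℝ) :
    ∑ k, x k * h (c.g k) = ∑ i ∈ range M, c.mass x i * h i := by
  simp only [Act.mass, sum_mul]
  rw [sum_comm]
  refine sum_congr rfl fun k _ => ?_
  simp only [ite_mul, zero_mul]
  rw [sum_ite_eq, if_pos (mem_range.2 (c.lt k))]

theorem Act.sum_mass (hx : Mix x) : ∑ i ∈ range M, c.mass x i = 1 := by
  simpa [hx.2] using (c.sum_g x fun _ => 1).symm

theorem Act.mass_nonneg (hx : Mix x) (i : ℕ) : 0 ≤ c.mass x i :=
  sum_nonneg fun k _ => by split_ifs; exacts [hx.1 k, le_rfl]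

theorem Act.one_le (hx : Mix x) (i p : ℕ) :
    0 ≤ (∑ k, if c.g k = i ∧ c.α k p = true then x k else 0) ∧
      (∑ k, if c.g k = i ∧ c.α k p = true then x k else 0) ≤ c.mass x i :=
  ⟨sum_nonneg fun k _ => by split_ifs; exacts [hx.1 k, le_rfl], sum_le_sum fun k _ => by
    have := hx.1 k
    by_cases h : c.g k = i <;> by_cases h' : c.α k p = true <;> simp [h, h', this]⟩

theorem Act.cond_mem (hx : Mix x) (i p : ℕ) : 0 ≤ c.cond x i p ∧ c.cond x i p ≤ 1 :=
  ⟨div_nonneg (c.one_le hx i p).1 (c.mass_nonneg hx i),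
    div_le_one_of_le₀ (c.one_le hx i p).2 (c.mass_nonneg hx i)⟩

theorem Act.sum_cond (hx : Mix x) (i p : ℕ) (h : Bool → ℝ) :
    ∑ k, (if i = c.g k then x k * h (c.α k p) else 0) =
      c.mass x i * ((1 - c.cond x i p) * h false + c.cond x i p * h true) := by
  have h1 : c.mass x i * c.cond x i p = ∑ k, if c.g k = i ∧ c.α k p = true then x k else 0 := by
    rcases (c.mass_nonneg hx i).eq_or_lt with h0 | h0
    · have := c.one_le hx i p
      rw [← h0] at this ⊢
      linarith [this.1, this.2]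
    · rw [Act.cond, mul_div_cancel₀ _ h0.ne']
  rw [show c.mass x i * ((1 - c.cond x i p) * h false + c.cond x i p * h true) =
    c.mass x i * h false + c.mass x i * c.cond x i p * (h true - h false) by ring, h1, Act.mass,
    sum_mul, sum_mul, ← sum_add_distrib]
  refine sum_congr rfl fun k _ => ?_
  by_cases h2 : c.g k = i
  · cases h3 : c.α k p <;> simp [h2]
    ring
  · simp [h2, Ne.symm h2]

omit [Fintype X] in
theorem main_mem (k l : X) : 0 ≤ main c d k l ∧ main c d k l ≤ 3 := by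
  refine ⟨sum_nonneg fun e _ => by split_ifs; exacts [NNRat.cast_nonneg _, le_rfl], ?_⟩
  refine le_trans (sum_le_sum (g := fun e => if d.gP e = c.g k ∧ d.gO e = c.g l then (1 : ℝ) else 0)
    fun e _ => ?_) ?_
  · split_ifs
    · exact_mod_cast d.le e _ _
    · rfl
  · rw [sum_boole]
    exact_mod_cast d.cell _ _

theorem hid_congr {s s' : ℕ → Bool} (h : ∀ j < M, s j = s' j) {j : ℕ} (hj : j < M) :
    hid M s j = hid M s' j := by
  rw [hid, hid, h j hj, sum_congr rfl fun i hi => by rw [h i (mem_range.1 hi)]]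

theorem sum_hid (hM : 0 < M) (s : ℕ → Bool) : ∑ j ∈ range M, hid M s j = 0 := by
  have : (M : ℝ) ≠ 0 := by positivity
  simp only [hid, sum_sub_distrib, sum_const, card_range, nsmul_eq_mul]
  field_simp
  ring

variable {c d}

theorem Best.find (h : Best c d lam ε x y) (hx : Mix x) (hy : Mix y) (hM : 0 < M) :
    c.dist y / 2 ≤ EE x y (fun k l => hid M (c.S k) (c.g l)) + ε := by
  have h0 : (M : ℝ) ≠ 0 := by positivity
  choose φ h1 h2 h3 using fun k => c.ex _ (c.lt k) (c.α k) fun j => decide (1 / M < c.mass y j)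
  have h4 := h.dev hx φ
  have h5 : ∀ k l, main c d (φ k) l = main c d k l := fun k l =>
    sum_congr rfl fun e _ => by rw [h1, h2 k _ (d.lt e).2.1]
  have h6 : ∀ k l, hid M (c.S (φ k)) (c.g l) =
      hid M (fun j => decide (1 / M < c.mass y j)) (c.g l) := fun k l => hid_congr (h3 k) (c.lt l)
  have h7 := EE_pay c d (x := x) (y := y) (lam := lam) id
  rw [EE_pay] at h4
  simp only [h1, h5, h6, id] at h4 h7
  rw [EE_right hx, c.sum_g y] at h4
  have h8 : ∑ j ∈ range M, c.mass y j * hid M (fun j => decide (1 / M < c.mass y j)) j =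
      c.dist y / 2 := by
    have h9 : ∑ j ∈ range M, (c.mass y j - 1 / M) = 0 := by
      rw [sum_sub_distrib, c.sum_mass hy, sum_const, card_range, nsmul_eq_mul]
      field_simp
      ring
    simp only [hid, mul_sub, sum_sub_distrib, ← sum_mul, c.sum_mass hy, one_mul]
    rw [sum_div, ← sum_sub_distrib, Act.dist, ← add_zero (∑ _ ∈ range M, |_|), ← h9,
      ← sum_add_distrib, sum_div]
    refine sum_congr rfl fun j _ => ?_
    by_cases hj : 1 / M < c.mass y j
    · rw [abs_of_pos (sub_pos.2 hj), decide_eq_true hj]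
      simp only [Bool.toNat_true, Nat.cast_one]
      ring
    · rw [abs_of_nonpos (sub_nonpos.2 (not_lt.1 hj)), decide_eq_false hj]
      simp
  change _ ≤ EE x y (fun k l => pay c d lam k l) + ε at h4
  linarith

theorem Best.hide (h : Best c d lam ε x y) (hx : Mix x) (hy : Mix y) (hM : 0 < M)
    (hl : 0 ≤ lam) : EE x y (fun k l => hid M (c.S l) (c.g k)) ≤ ε + 3 * lam := by
  obtain ⟨i, hi, h0⟩ : ∃ i ∈ range M, ∑ l, y l * hid M (c.S l) i ≤ 0 := by
    refine exists_le_of_sum_le ⟨0, mem_range.2 hM⟩ (le_of_eq ?_)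
    rw [sum_comm]
    simp only [← mul_sum, sum_hid hM, mul_zero, sum_const_zero]
  choose φ h1 h2 h3 using fun k => c.ex _ (mem_range.1 hi) (c.α k) (c.S k)
  have h4 := h.dev hx φ
  have h6 : ∀ k l, hid M (c.S (φ k)) (c.g l) = hid M (c.S k) (c.g l) :=
    fun k l => hid_congr (h3 k) (c.lt l)
  have h7 := EE_pay c d (x := x) (y := y) (lam := lam) id
  rw [EE_pay] at h4
  simp only [h1, h6, id] at h4 h7
  rw [EE_right hx (fun l => hid M (c.S l) i)] at h4
  have h8 := EE_mono hx hy fun k l => (main_mem c d (φ k) l).1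
  have h9 := EE_mono hx hy fun k l => (main_mem c d k l).2
  rw [EE_const hx hy] at h8 h9
  change _ ≤ EE x y (fun k l => pay c d lam k l) + ε at h4
  nlinarith

theorem dist_le {d' : Ed E' M} (h : Best c d lam ε x y) (h' : Best c d' lam ε y x) (hx : Mix x)
    (hy : Mix y) (hM : 0 < M) (hl : 0 ≤ lam) : c.dist y ≤ 4 * ε + 6 * lam := by
  have h1 := h.find hx hy hM
  have h2 := h'.hide hy hx hM hl
  rw [EE_swap] at h2
  linarith

theorem EE_main (hy : Mix y) (φ : X → X) (h : ∀ k, c.g (φ k) = c.g k) :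
    EE x y (fun k l => main c d (φ k) l) = ∑ e, ∑ k, if d.gP e = c.g k then x k *
      (c.mass y (d.gO e) * mix (d.w e) (c.α (φ k) (d.pP e)) (c.cond y (d.gO e) (d.pO e))) else 0 := by
  rw [sum_comm]
  refine sum_congr rfl fun k _ => ?_
  simp only [main, h, mul_sum, sum_mul]
  rw [sum_comm]
  refine sum_congr rfl fun e _ => ?_
  rw [mix, ← c.sum_cond hy _ _ fun t => d.w e (c.α (φ k) (d.pP e)) t]
  by_cases h1 : d.gP e = c.g k
  · rw [if_pos h1, mul_sum]
    refine sum_congr rfl fun l _ => ?_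
    by_cases h2 : d.gO e = c.g l
    · rw [if_pos ⟨h1, h2⟩, if_pos h2]
      ring
    · simp [h2]
  · simp [h1]

/-- the gain on an edge from the action `s` -/
noncomputable def gain (A : Bool → Bool → ℚ≥0) (s : Bool) (u v : ℝ) : ℝ :=
  mix A s v - ((1 - u) * mix A false v + u * mix A true v)

theorem gain_abs {A : Bool → Bool → ℚ≥0} (h : ∀ s t, A s t ≤ 1) (s : Bool) {u v : ℝ}
    (hu : 0 ≤ u ∧ u ≤ 1) (hv : 0 ≤ v ∧ v ≤ 1) : |gain A s u v| ≤ 1 := by
  have h1 : ∀ s, 0 ≤ mix A s v ∧ mix A s v ≤ 1 := fun s => by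
    have h1 : ∀ t, ((A s t : ℚ≥0) : ℝ) ≤ 1 := fun t => by exact_mod_cast h s t
    have h2 : ∀ t, (0 : ℝ) ≤ (A s t : ℚ≥0) := fun t => NNRat.cast_nonneg _
    rw [mix]
    constructor <;> nlinarith [h1 true, h1 false, h2 true, h2 false]
  rw [gain, abs_le]
  constructor <;> nlinarith [h1 true, h1 false, h1 s]

theorem Best.play (h : Best c d lam ε x y) (hx : Mix x) (hy : Mix y) (a : ℕ → ℕ → Bool) :
    lam * ∑ e, c.mass x (d.gP e) * c.mass y (d.gO e) * gain (d.w e) (a (d.gP e) (d.pP e))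
      (c.cond x (d.gP e) (d.pP e)) (c.cond y (d.gO e) (d.pO e)) ≤ ε := by
  choose φ h1 h2 h3 using fun k => c.ex _ (c.lt k) (a (c.g k)) (c.S k)
  have h4 := h.dev hx φ
  have h6 : ∀ k l, hid M (c.S (φ k)) (c.g l) = hid M (c.S k) (c.g l) :=
    fun k l => hid_congr (h3 k) (c.lt l)
  have h7 := EE_pay c d (x := x) (y := y) (lam := lam) id
  rw [EE_pay, EE_main hy φ h1] at h4
  rw [EE_main hy id fun _ => rfl] at h7
  simp only [h1, h6, id] at h4 h7
  change _ ≤ EE x y (fun k l => pay c d lam k l) + ε at h4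
  rw [h7] at h4
  have h8 : ∀ u v r t : ℝ, u + r - t ≤ v + r - t + ε → u - v ≤ ε := fun u v r t h => by linarith
  refine le_trans (le_of_eq ?_) (h8 _ _ _ _ h4)
  rw [← mul_sub, ← sum_sub_distrib]
  refine congrArg _ (sum_congr rfl fun e _ => ?_)
  rw [c.sum_cond hx _ _ fun s => c.mass y (d.gO e) * mix (d.w e) s (c.cond y (d.gO e) (d.pO e)),
    sum_congr rfl (g := fun k => if d.gP e = c.g k then x k * (c.mass y (d.gO e) *
      mix (d.w e) (a (d.gP e) (d.pP e)) (c.cond y (d.gO e) (d.pO e))) else 0) fun k _ => by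
      split_ifs with h5
      · rw [h2 k _ (d.lt e).2.1, ← h5]
      · rfl,
    c.sum_cond hx _ (d.pP e) fun _ => c.mass y (d.gO e) *
      mix (d.w e) (a (d.gP e) (d.pP e)) (c.cond y (d.gO e) (d.pO e)), gain]
  ring

theorem sum_cell (d : Ed E M) {F : ℕ → ℕ → ℝ} (hF : ∀ i j, 0 ≤ F i j) :
    ∑ e, F (d.gP e) (d.gO e) ≤ 3 * ∑ i ∈ range M, ∑ j ∈ range M, F i j := by
  rw [← sum_product', mul_sum, ← sum_fiberwise_of_maps_to (s := univ) (t := range M ×ˢ range M)
    (g := fun e => (d.gP e, d.gO e))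
    fun e _ => mem_product.2 ⟨mem_range.2 (d.lt e).1, mem_range.2 (d.lt e).2.2⟩]
  refine sum_le_sum fun z _ => ?_
  rw [sum_congr rfl (g := fun _ => F z.1 z.2) fun e he => by rw [← (mem_filter.1 he).2], sum_const,
    nsmul_eq_mul]
  refine mul_le_mul_of_nonneg_right ?_ (hF _ _)
  have := d.cell z.1 z.2
  simp only [Prod.ext_iff]
  exact_mod_cast this

theorem sum_prod_le (hy : Mix y) (hM : 0 < M) :
    ∑ i ∈ range M, ∑ j ∈ range M, |c.mass x i * c.mass y j - 1 / M ^ 2| ≤ c.dist x + c.dist y := by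
  have h0 : (0 : ℝ) < M := by positivity
  calc _ ≤ ∑ i ∈ range M, ∑ j ∈ range M,
        (|c.mass x i - 1 / M| * c.mass y j + 1 / M * |c.mass y j - 1 / M|) := by
        refine sum_le_sum fun i _ => sum_le_sum fun j _ => ?_
        rw [show c.mass x i * c.mass y j - 1 / M ^ 2 = (c.mass x i - 1 / M) * c.mass y j +
          1 / M * (c.mass y j - 1 / M) by ring]
        refine (abs_add_le _ _).trans (le_of_eq ?_)
        rw [abs_mul, abs_mul, abs_of_nonneg (c.mass_nonneg hy j), abs_of_pos (one_div_pos.2 h0)]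
    _ = _ := by
        simp only [sum_add_distrib, ← mul_sum, c.sum_mass hy, mul_one, sum_const, card_range,
          nsmul_eq_mul, Act.dist]
        rw [← mul_assoc, one_div_mul_cancel h0.ne', one_mul]

/-- The total gain from any deviation in the polymatrix game is small. -/
theorem gain_le {d' : Ed E' M} (h : Best c d lam (lam ^ 2) x y) (h' : Best c d' lam (lam ^ 2) y x)
    (hx : Mix x) (hy : Mix y) (hM : 0 < M) (hl : 0 < lam) (hl' : lam ≤ 1) (a : ℕ → ℕ → Bool) :
    ∑ e, gain (d.w e) (a (d.gP e) (d.pP e)) (c.cond x (d.gP e) (d.pP e))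
      (c.cond y (d.gO e) (d.pO e)) ≤ 61 * lam * M ^ 2 := by
  have h0 : (0 : ℝ) < M := by positivity
  have h1 := h.play hx hy a
  rw [sq, mul_le_mul_iff_right₀ hl] at h1
  have h2 := dist_le h h' hx hy hM hl.le
  have h3 := dist_le h' h hy hx hM hl.le
  have h4 := (sum_cell d (F := fun i j => |c.mass x i * c.mass y j - 1 / M ^ 2|)
    fun _ _ => abs_nonneg _).trans
    (mul_le_mul_of_nonneg_left (sum_prod_le hy hM) (by norm_num))
  rw [← div_le_iff₀ (by positivity), sum_div]
  refine le_trans (sum_le_sum fun e _ => ?_)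
    ((sum_add_distrib.trans_le (add_le_add h1 h4)).trans (by nlinarith))
  have h5 := gain_abs (d.le e) (a (d.gP e) (d.pP e)) (c.cond_mem hx (d.gP e) (d.pP e))
    (c.cond_mem hy (d.gO e) (d.pO e))
  generalize gain _ _ _ _ = r at h5 ⊢
  generalize c.mass x _ * c.mass y _ = u
  have h6 : (1 / M ^ 2 - u) * r ≤ |u - 1 / M ^ 2| := by
    refine (le_abs_self _).trans ?_
    rw [abs_mul, abs_sub_comm]
    exact mul_le_of_le_one_right (abs_nonneg _) h5
  rw [div_eq_mul_one_div]
  linarith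

end Vale.Agent.N330B
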