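import Vale.Agent.N330B.Mat
import Vale.Agent.P310Z.While
import Vale.Agent.Lib.PolyTime.OfTM2

/-!
P330, third hand-in: running times. Simulation of a machine with a clock, compilation of programs,
and the transfer of time bounds from games to End-of-Line.
-/

namespace Vale.Agent.N330B

open Function Turing Vale.Agent.P330 Vale.Agent.Lib.NP
open Vale.Agent.Lib.PolyTime hiding C P
open Vale.Agent.Lib.Dep

theorem Outputs.mono {M : TM2ComputableAux Bool Bool} {w v : List Bool} {t t' : ℕ}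
    (h : Outputs M w v t) (ht : t ≤ t') : Outputs M w v t' :=
  h.elim fun e => ⟨⟨e.1, e.2.trans ht⟩⟩

open OfTM2 in
/-- simulation with a clock -/
theorem exists_clock (M : TM2ComputableAux Bool Bool) : ∃ F, FP ∅ F ∧
    ∀ w v u : Word, Outputs M w v u.length → F (pr w u) = v := by
  have hK : Fintype M.tm.K := M.tm.kFin
  have hΛ : Fintype M.tm.Λ := M.tm.ΛFin
  have hσ : Fintype M.tm.σ := M.tm.σFin
  set inp : Bool → M.tm.Γ M.tm.k₀ := ⇑M.inputAlphabet.symm with hinp
  set out : Bool → M.tm.Γ M.tm.k₁ := ⇑M.outputAlphabet.symm with hout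
  obtain ⟨T, hT⟩ : ∃ T : List (Σ k, M.tm.Γ k), ∀ x, x ∈ T ↔
      x ∈ ((⋃ l, pushes (M.tm.m l)) ∪ (Set.range (fun b => (⟨M.tm.k₀, inp b⟩ : Σ k, M.tm.Γ k)) ∪
        Set.range fun b => (⟨M.tm.k₁, out b⟩ : Σ k, M.tm.Γ k))) :=
    ⟨((Set.finite_iUnion fun l => pushes_finite (M.tm.m l)).union
      ((Set.finite_range _).union (Set.finite_range _))).toFinset.toList,
      fun x => by rw [Finset.mem_toList, Set.Finite.mem_toFinset]⟩
  have hT1 : ∀ l, ∀ x ∈ pushes (M.tm.m l), x ∈ T := fun l x hx =>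
    (hT x).2 (Or.inl (Set.mem_iUnion.2 ⟨l, hx⟩))
  have hT2 : ∀ b, (⟨M.tm.k₀, inp b⟩ : Σ k, M.tm.Γ k) ∈ T := fun b =>
    (hT _).2 (Or.inr (Or.inl ⟨b, rfl⟩))
  have hT3 : ∀ b, (⟨M.tm.k₁, out b⟩ : Σ k, M.tm.Γ k) ∈ T := fun b =>
    (hT _).2 (Or.inr (Or.inr ⟨b, rfl⟩))
  set init : Raw × Raw → Fi (Option M.tm.Λ) × Fi M.tm.σ × (M.tm.K → List ℕ) := fun x =>
    (⟨some M.tm.main⟩, ⟨M.tm.initialState⟩, fun k =>
      if k = M.tm.k₀ then x.1.w.map (fun b => idx T M.tm.k₀ (inp b)) else []) with hinit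
  have hPinit : PT ∅ init := by
    refine (PT.const _).pair ((PT.const _).pair (PT_pi fun k => ?_))
    by_cases h : k = M.tm.k₀
    · refine (PT.map (f := fun (_ : Raw × Raw) b => idx T M.tm.k₀ (inp b)) (PT.listOfRaw PT.fst')
        (PT.finComp (fun b => idx T M.tm.k₀ (inp b)) PT.snd')).congr fun x => by rw [if_pos h]
    · exact (PT.const ([] : List ℕ)).congr fun x => by rw [if_neg h]
  have hinit_eq : ∀ w u : Word, init (⟨w⟩, ⟨u⟩) = cf T (initList M.tm (w.map inp)) := by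
    intro w u
    simp only [hinit, cf, initList]
    refine Prod.ext rfl (Prod.ext rfl (funext fun k => ?_))
    by_cases h : k = M.tm.k₀
    · subst h
      simp [mp]
    · simp [mp, h]
  have hOk : ∀ w : Word, OfTM2.Ok T (initList M.tm (w.map inp)).stk := by
    intro w k γ hγ
    by_cases h : k = M.tm.k₀
    · subst h
      simp only [initList, dite_true] at hγ
      obtain ⟨b, -, rfl⟩ := List.mem_map.1 hγ
      exact hT2 b
    · simp [initList, h] at hγ
  obtain ⟨c', hc'⟩ := simStep_size T M.tm.m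
  have hrun : PT ∅ (fun x : Raw × Raw => (simStep T M.tm.m)^[esize x.2] (init x)) := by
    have hB : PBd (fun x : Raw × Raw => (2 * Fintype.card (Option M.tm.Λ) +
        (2 * Fintype.card M.tm.σ + (esize (init x) + esize x.2 * c')) + 2)) := by
      have := hPinit.pbd
      have := (PT.snd' (A := ∅) (α := Raw) (β := Raw)).pbd
      fun_prop
    refine PT.iterate_esize PT.snd' hPinit (PT_simStep T M.tm.m) hB fun x j hj => ?_
    exact (esize_cf _).trans (Nat.add_le_add_right (Nat.add_le_add_left (Nat.add_le_add_left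
      ((hc' (init x) j).trans (Nat.add_le_add ((esize_snd_le (init x).2).trans
        (esize_snd_le (init x))) (Nat.mul_le_mul_right c' hj))) _) _) _)
  obtain ⟨g, hg, hg'⟩ := PT.rawOfList (PT.map
    (f := fun (_ : Raw × Raw) i => decide (i = idx T M.tm.k₁ (out true)))
    (PT_apply hrun.snd.snd M.tm.k₁) (PT.eqNat PT.snd' (PT.const _)))
  refine ⟨g, hg, fun w v u ⟨⟨n, hn⟩, hnm⟩ => (hg' (⟨w⟩, ⟨u⟩)).trans ?_⟩
  change List.map _ (((simStep T M.tm.m)^[u.length] (init (⟨w⟩, ⟨u⟩))).2.2 M.tm.k₁) = v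
  rw [hinit_eq, (simStep_iterate hT1 _ (hOk w) _).1, tstep_iterate' M.tm.m n _ _ hn rfl _ hnm]
  have h4 : (cf T (haltList M.tm (v.map out))).2.2 M.tm.k₁ =
      v.map fun b => idx T M.tm.k₁ (out b) := by
    simp [cf, mp, haltList]
  refine (congrArg (List.map fun i => decide (i = idx T M.tm.k₁ (out true))) h4).trans ?_
  rw [List.map_map]
  conv_rhs => rw [← List.map_id v]
  refine List.map_congr_left fun b _ => ?_
  cases b
  · simp only [Function.comp_apply, id_eq, decide_eq_false_iff_not]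
    exact fun h5 => absurd (M.outputAlphabet.symm.injective (idx_inj (hT3 false) h5)) (by decide)
  · simp

/-- polynomial time maps on codes extend to all words -/
theorem fp_of_polyTime {α β : Type} {ea : α → List Bool} {eb : β → List Bool} {f : α → β}
    (h : PolyTime ea eb f) : ∃ g, FP ∅ g ∧ ∀ a, g (ea a) = eb (f a) := by
  obtain ⟨M, -⟩ := h
  obtain ⟨F, hF, e⟩ := exists_clock M.toTM2ComputableAux
  obtain ⟨u, hu, hl⟩ := FP.unary (A := ∅) FP.id M.time
  exact ⟨_, hF.comp (FP.id.pair hu), fun a => e _ _ _ (by rw [hl]; exact ⟨M.outputsFun a⟩)⟩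

theorem polyTime_of_fp {g : Word → Word} (h : FP ∅ g) : PolyTime id id g :=
  exists_tm2_of_polyTimeFun _ _ g g (polyTimeFun_iff.2 h) fun _ => rfl

open ToTM2 in
/-- compilation of a program -/
theorem exists_machine (p : Prog) : ∃ (M : TM2ComputableAux Bool Bool) (c : ℕ),
    (∀ k, Finite (M.tm.Γ k)) ∧ ∀ x t σ, Runs ∅ p (start x []) t σ →
      Outputs M x (σ 0) (c * (x.length + t + 1)) := by
  classical
  obtain ⟨N, hN⟩ := exists_bounded p
  set P : Prog := .seq p (clearAll N) with hP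
  have hPb : bounded (N + 1) P := ⟨bounded_mono (Nat.le_succ N) hN, bounded_clearAll N⟩
  set R : Set (List Prog) := insert [] (reach P []) with hR
  have h0 : [] ∈ R := Set.mem_insert _ _
  have : Fintype R := ((reach_finite P []).insert []).fintype
  let tm : FinTM2 :=
    { K := Fin (N + 1)
      k₀ := 0
      k₁ := 0
      Γ := fun _ => Bool
      Λ := R
      main := lab R h0 [P]
      σ := Option Bool
      initialState := none
      m := fun l => stmt N R h0 l.1 }
  refine ⟨⟨tm, Equiv.refl Bool, Equiv.refl Bool⟩, 4 * N + 3, fun k => (inferInstance : Finite Bool),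
    fun x T s ⟨t, ht, e⟩ => ?_⟩
  have hlen : ∀ i, (s i).length ≤ x.length + T := fun i => by
    have h1 := e.length_le i
    have h2 : (start x [] i).length ≤ x.length := by
      unfold start
      split_ifs <;> simp
    omega
  obtain ⟨t', s', e', ht', a1, a2, a3⟩ := eval_clearAll ∅ N s _ hlen
  obtain ⟨n, v', hn, hsteps⟩ := sim (N := N) (R := R) (h0 := h0) (Eval.seq e e') hPb []
    (fun y hy => Set.mem_insert_of_mem _ hy) h0 none
  have hlast : Steps N R h0 1 ⟨some (lab R h0 []), v', restr N s'⟩ ⟨none, none, restr N s'⟩ := by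
    refine steps_one ?_
    rw [lab_of_mem h0]
    simp [stmt]
  have e1 : initList tm (List.map (Equiv.refl Bool).symm x) =
      ⟨some (lab R h0 [P]), none, restr N (start x [])⟩ := by
    unfold initList
    congr 1
    funext k
    by_cases hk : k = 0
    · subst hk
      simp [tm, restr, start]
    · have : (k : ℕ) ≠ 0 := fun e => hk (Fin.ext e)
      simp [tm, restr, start, hk, this]
  have e2 : haltList tm (List.map (Equiv.refl Bool).symm (s 0)) = ⟨none, none, restr N s'⟩ := by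
    unfold haltList
    congr 1
    funext k
    by_cases hk : k = 0
    · subst hk
      simp [tm, restr, a2]
    · simp [tm, restr, hk, a1 k (Nat.one_le_iff_ne_zero.2 fun e => hk (Fin.ext e))
        (Nat.le_of_lt_succ k.isLt)]
  have h1 := hsteps.trans hlast
  rw [← e1, ← e2] at h1
  exact ⟨⟨⟨1 + n, h1⟩, by change 1 + n ≤ _; nlinarith⟩⟩

/-- unbounded loops on Turing machines -/
theorem exists_loop {init step flag out : Word → Word} (hi : FP ∅ init) (hs : FP ∅ step)
    (hf : FP ∅ flag) (ho : FP ∅ out) : ∃ (M : TM2ComputableAux Bool Bool) (c : ℕ),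
      (∀ k, Finite (M.tm.Γ k)) ∧ ∀ (y : Word) (s B : ℕ), y.length ≤ B → s ≤ B →
        flag (step^[s] (init y)) = [] → (∀ j ≤ s, (step^[j] (init y)).length ≤ B) →
        ∃ j, flag (step^[j] (init y)) = [] ∧ Outputs M y (out (step^[j] (init y))) (pb c B) := by
  classical
  obtain ⟨U, T, hT, h⟩ := P310Z.exists_while hi hs hf ho
  obtain ⟨M, c, hM, e⟩ := exists_machine
    (.seq U (.seq (.clear 0) (.seq (.clear 2) (.mvo 1 0 2))))
  obtain ⟨d, hd⟩ := (PB.const c).mul (((PB.const 13).mul (PB.id.add hT)).add (PB.const 5))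
  refine ⟨M, d, hM, fun y s B h1 h2 h3 h4 => ?_⟩
  have h5 : ∃ j, flag (step^[j] (init y)) = [] := ⟨s, h3⟩
  have h6 := Nat.find_min' h5 h3
  obtain ⟨σ, r1, h7⟩ := h y (Nat.find h5) B h1 (h6.trans h2) (fun j hj => Nat.find_min h5 hj)
    (Nat.find_spec h5) fun j hj => h4 j (hj.trans h6)
  have r2 := e y _ _ (r1.seq ((Runs.clear 0).seq ((Runs.clear 2).seq
    (Runs.mvo (i := 1) (j := 0) (k := 2) (by omega) (by omega) (by omega) (by simp)))))
  refine ⟨_, Nat.find_spec h5, ?_⟩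
  have l0 : (σ 0).length ≤ y.length + T B := r1.length_le 0
  have l1 : (σ 1).length ≤ 0 + T B := r1.length_le 1
  have l2 : (σ 2).length ≤ 0 + T B := r1.length_le 2
  simp only [ne_eq, OfNat.ofNat_ne_zero, not_false_eq_true, update_of_ne, OfNat.one_ne_ofNat,
    OfNat.zero_ne_ofNat, one_ne_zero, update_self, List.append_nil] at r2
  rw [← h7]
  exact r2.mono ((Nat.mul_le_mul_left _ (by omega)).trans (hd B))

theorem dpt_fp {α : Type} [Enc α] {β : Type} [Enc β] {g : Word → Word} (hg : FP ∅ g) {f : α → β}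
    (hf : DPT f) : DPT fun a => Raw.mk (g (enc (f a))) :=
  DPT.comp (g := fun b : β => Raw.mk (g (enc b))) ⟨g, hg, fun _ => rfl⟩ hf

theorem bnd_mono {c c' : ℕ} (h : c ≤ c') (I : EOL) : bnd c I.N ≤ bnd c' I.N :=
  Nat.pow_le_pow_right (by norm_num) (Nat.mul_le_mul_left _
    (Nat.pow_le_pow_right (by have := I.two_le_log; omega) h))

theorem lt_bnd (c : ℕ) (I : EOL) : I.N < bnd (c + 1) I.N := by
  refine ((Nat.lt_pow_succ_log_self (b := 2) (by norm_num) _).trans_le
    (Nat.pow_le_pow_right (by norm_num) ?_)).trans_le (bnd_mono (c := 1) (by omega) I)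
  have h1 : 2 ≤ I.N.sqrt := Nat.le_sqrt.2 (by have := I.size_le; omega)
  nlinarith [I.two_le_log]

theorem dpt_bnd (c : ℕ) : DPT fun I : EOL => bnd c I.N := by
  have h1 : DPT fun I : EOL => I.N := DPT.id.esize
  have h2 : PBd fun I : EOL => I.N := PBd.esize
  have h3 : DPT fun I : EOL => Nat.log 2 I.N :=
    (h1.natSize.natSub (DPT.const 1)).congr fun I => by
      have h4 : 0 < I.N.size := Nat.size_pos.2 (by have := I.size_le; omega)
      exact (Nat.log_eq_of_pow_le_of_lt_pow (Nat.lt_size.1 (by omega))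
        (by rw [Nat.sub_add_cancel h4]; exact Nat.lt_size_self _)).symm
  exact (DPT.const 2).natPow ((DPT.ofPT (Lib.PCP.pt_sqrt h1.toPT)).natMul
    (h3.natPow (DPT.const c) (PBd.const c))) ((h2.mono fun _ => Nat.sqrt_le_self _).mul
      ((h2.mono fun _ => Nat.log_le_self _ _).pow c))

/-- The transfer of time bounds. -/
theorem timeGoal : ∃ (ε : ℝ) (c : ℕ) (R D : Word → Word), 0 < ε ∧ FP ∅ R ∧ FP ∅ D ∧
    (∀ (I : EOL) (K : ℕ), bnd c I.N ≤ K → ∃ G : Bimatrix, G.n = K ∧
      R (pairW I.code (List.replicate K true)) = G.code ∧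
      ∀ x y, G.Nash ε x y → I.Solution (D (pairW I.code (profW x y)))) ∧
    ∀ M, ∃ (M' : TM2ComputableAux Bool Bool) (d : ℕ), (∀ k, Finite (M'.tm.Γ k)) ∧
      ∀ (I : EOL) (t : ℕ), (∀ G : Bimatrix, G.code.length ≤ bnd c I.N → Finds M ε G t) →
        Solves M' I ((t + bnd c I.N) ^ d) := by
  classical
  obtain ⟨ε, c, R, D, h0, hR, hD, h⟩ := matGoal
  obtain ⟨-, -, k, -, hk, -⟩ := hR.elim
  refine ⟨ε, c + 1 + 2 * k, R, D, h0, hR, hD,
    fun I K hK => h I K ((bnd_mono (by omega) I).trans hK), fun M => ?_⟩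
  obtain ⟨F, hF, eF⟩ := exists_clock M
  have u1 : DPT fun q : EOL × Un => q.2.v := DPT.ofPT (PT.unVal PT.snd')
  have u2 : PBd fun q : EOL × Un => q.2.v := PBd.unVal (A := ∅) PT.snd'
  have p1 := dpt_fp hD (DPT.id.fst.pair (dpt_fp hF ((dpt_fp hR (DPT.id.fst.pair (DPT.ofPT
    (PT.mkUn (((dpt_bnd (c + 1)).comp DPT.id.fst).natMin u1).toPT (pbd_min' u2))))).pair
      DPT.id.snd)))
  obtain ⟨v, hv⟩ : ∃ v : EOL × Un → List Bool, ∀ q, v q = D (pr q.1.code (F (pr (R (pr q.1.code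
    (List.replicate (min (bnd (c + 1) q.1.N) q.2.v) true))) (List.replicate q.2.v true)))) :=
    ⟨_, fun _ => rfl⟩
  have p2 : DPT v := (DPT.ofPT (PT.listOfRaw p1.toPT)).congr fun q => (hv q).symm
  have p3 : DPr fun q : EOL × Un => q.1.Solution (v q) := by
    have := pbd_n (I := fun q : EOL × Un => q.1) DPT.id.fst
    simp only [EOL.Solution]
    fun_prop
  obtain ⟨out, ho, eo⟩ := PT.rawOfList p2.toPT
  obtain ⟨flag, hf, ef⟩ := DPT.ite p3 (DPT.const (Raw.mk [])) (DPT.const (Raw.mk [true]))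
  obtain ⟨step, hs, es⟩ := (DPT.id (α := EOL × Un)).fst.pair
    (DPT.ofPT (PT.mkUn ((DPT.const 2).natMul u1).toPT ((PBd.const 2).mul u2)))
  obtain ⟨M', d, hM', e⟩ := exists_loop (FP.id.pair (FP.const [true])) hs hf ho
  refine ⟨M', 2 * d, hM', fun I t ht => ?_⟩
  have i1 : ∀ j, step^[j] (pr I.code [true]) = enc (I, Un.mk (2 ^ j)) := fun j => by
    induction j with
    | zero => rfl
    | succ j ih => rw [iterate_succ_apply', ih, es, pow_succ']
  have i2 : ∀ q : EOL × Un, flag (enc q) = [] ↔ q.1.Solution (v q) := fun q => by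
    rw [ef]
    by_cases h1 : q.1.Solution (v q) <;> simp [h1, enc_raw]
  have b1 := lt_bnd c I
  have b2 := bnd_mono (show c + 1 ≤ c + 1 + 2 * k by omega) I
  have b3 := I.size_le
  have b4 := I.pos
  obtain ⟨n, hn⟩ : ∃ n, n = t + bnd (c + 1 + 2 * k) I.N := ⟨_, rfl⟩
  have b5 := Nat.lt_size_self n
  have b6 : 2 ^ n.size ≤ 2 * n := by
    have h1 : 0 < n.size := Nat.size_pos.2 (by omega)
    rw [← Nat.sub_add_cancel h1, pow_succ']
    exact Nat.mul_le_mul_left _ (Nat.lt_size.1 (by omega))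
  obtain ⟨j, h1, h2⟩ := e I.code n.size (4 * n + 1) (by change I.N ≤ _; omega)
    ((Nat.size_le.2 Nat.lt_two_pow_self).trans (by omega)) (by
      obtain ⟨G, -, h2, h3⟩ := h I _ (bnd_mono (Nat.le_succ c) I)
      obtain ⟨x, y, h4, h5⟩ := ht G (by
        rw [← h2]
        refine (hk _).trans ?_
        rw [length_pairW, List.length_replicate, pb]
        refine (Nat.pow_le_pow_left (m := bnd (c + 1) I.N ^ 2) (by
          change 2 * I.N + 1 + bnd (c + 1) I.N + 2 ≤ _; nlinarith) k).trans ?_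
        rw [bnd, bnd, ← pow_mul, ← pow_mul, pow_add _ (c + 1), ← mul_assoc I.N.sqrt]
        exact Nat.pow_le_pow_right (by norm_num) (Nat.mul_le_mul_left _
          (Nat.lt_two_pow_self.le.trans (Nat.pow_le_pow_left I.two_le_log _))))
      rw [i1, i2, hv, min_eq_left (by dsimp only; omega), ← pairW_eq, h2, pairW_eq,
        eF _ _ _ (h5.mono (by rw [List.length_replicate]; change _ ≤ 2 ^ n.size; omega)),
        ← pairW_eq]
      exact h3 x y h4) fun j hj => by
      have h1 : 2 ^ j ≤ 2 ^ n.size := Nat.pow_le_pow_right (by norm_num) hj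
      have h2 := esize_pair I (Un.mk (2 ^ j))
      rw [esize_un, I.esize_eq] at h2
      rw [i1]
      exact h2.trans_le (by dsimp only; omega)
  rw [i1] at h1 h2
  refine ⟨_, (i2 _).1 h1, ((congrArg (Outputs M' I.code · _) (eo _)).mp h2).mono ?_⟩
  rw [pb, pow_mul, ← hn]
  exact Nat.pow_le_pow_left (by nlinarith) d

theorem quasi_le (c d a k : ℕ) : ∃ N₀, ∀ N, N₀ ≤ N → ∃ t,
    (∀ L ≤ bnd c N, quasi a (2 * (2 * c + d + 1)) L ≤ t) ∧
      (t + bnd c N) ^ k ≤ 2 ^ (N / Nat.log 2 N ^ d) := by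
  obtain ⟨w₀, hw⟩ := Filter.eventually_atTop.1 ((tendsto_pow_const_div_const_pow_of_one_lt
    (2 * (c + d + 1)) (one_lt_two (α := ℝ))).eventually_lt_const one_pos)
  refine ⟨2 ^ (4 * (w₀ + 5) + (a + 4) * k), fun N hN => ?_⟩
  have h0 : N ≠ 0 := ((Nat.two_pow_pos _).trans_le hN).ne'
  have h1 := (Nat.le_log_iff_pow_le (by norm_num) h0).2 hN
  have h2 := Nat.pow_log_le_self 2 h0
  simp only [bnd]
  generalize Nat.log 2 N = l at *
  obtain ⟨w, w1, w2⟩ : ∃ w, 4 * w ≤ l ∧ l ≤ 4 * w + 3 := ⟨l / 4, by omega, by omega⟩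
  have w3 : l ≤ w ^ 2 := by nlinarith [show 5 ≤ w by omega]
  have w4 : l ^ (c + d + 1) ≤ 2 ^ w := by
    have h3 := hw w (by omega)
    rw [div_lt_one (by positivity)] at h3
    exact (Nat.pow_le_pow_left w3 _).trans (by rw [← pow_mul]; exact_mod_cast h3.le)
  have w5 : 2 ^ w * 2 ^ w ≤ N.sqrt := Nat.le_sqrt.2 (by
    simp only [← pow_add]
    exact (Nat.pow_le_pow_right (by norm_num) (by omega)).trans h2)
  have l0 : ∀ j, 0 < l ^ j := fun j => Nat.pow_pos (by omega)
  have s1 := Nat.sqrt_le N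
  obtain ⟨U, hU⟩ : ∃ U, U = N.sqrt * l ^ c := ⟨_, rfl⟩
  have z1 : U * 2 ^ w ≤ N / l ^ (d + 1) := (Nat.le_div_iff_mul_le (l0 _)).2 (by
    calc _ = N.sqrt * (2 ^ w * l ^ (c + d + 1)) := by rw [hU]; ring
      _ ≤ N.sqrt * N.sqrt := Nat.mul_le_mul_left _ ((Nat.mul_le_mul_left _ w4).trans w5)
      _ ≤ N := s1)
  have z2 : U * (U / w ^ (2 * (2 * c + d + 1))) ≤ N / l ^ (d + 1) :=
    (Nat.le_div_iff_mul_le (l0 _)).2 (Nat.le_of_mul_le_mul_right (c := l ^ (2 * c)) (by
      calc _ = U * (U / w ^ (2 * (2 * c + d + 1)) * l ^ (2 * c + d + 1)) := by ring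
        _ ≤ U * U := Nat.mul_le_mul_left _ ((Nat.mul_le_mul_left _
          ((Nat.pow_le_pow_left w3 _).trans_eq (pow_mul _ _ _).symm)).trans (Nat.div_mul_le_self _ _))
        _ = N.sqrt * N.sqrt * l ^ (2 * c) := by rw [hU]; ring
        _ ≤ _ := Nat.mul_le_mul_right _ s1) (l0 _))
  rw [← hU]
  refine ⟨2 ^ (U * (a + (2 ^ w + U / w ^ (2 * (2 * c + d + 1))))), fun L hL => ?_, ?_⟩
  · rw [quasi, pow_mul 2 U]
    refine (Nat.pow_le_pow_left hL _).trans (Nat.pow_le_pow_right (by positivity)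
      (Nat.add_le_add_left ?_ _))
    rcases le_total (Nat.log 2 L) (2 ^ w) with h | h
    · exact (Nat.div_le_self _ _).trans (h.trans (Nat.le_add_right _ _))
    · refine le_trans (Nat.div_le_div ((Nat.log_mono_right hL).trans_eq (Nat.log_pow one_lt_two _))
        (Nat.pow_le_pow_left (Nat.le_log_of_pow_le one_lt_two h) _) ?_) (Nat.le_add_left _ _)
      exact (Nat.pow_pos (by omega)).ne'
  · have z3 : U ≤ U * 2 ^ w := Nat.le_mul_of_pos_right _ (Nat.two_pow_pos _)
    have z4 : 0 < U := by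
      rw [hU]
      exact Nat.mul_pos (Nat.sqrt_pos.2 (by omega)) (l0 _)
    have z5 := Nat.div_mul_le_self N (l ^ (d + 1))
    generalize N / l ^ (d + 1) = Z at *
    generalize U / w ^ (2 * (2 * c + d + 1)) = Y at *
    have z6 : U * (a + (2 ^ w + Y)) + U + 1 ≤ (a + 4) * Z := by
      nlinarith [Nat.mul_le_mul_right a (z3.trans z1)]
    refine (Nat.pow_le_pow_left (m := 2 ^ (U * (a + (2 ^ w + Y)) + U + 1)) ?_ k).trans ?_
    · rw [pow_succ, mul_two]
      exact Nat.add_le_add (Nat.pow_le_pow_right (by norm_num) (by omega))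
        (Nat.pow_le_pow_right (by norm_num) (by omega))
    · rw [← pow_mul]
      refine Nat.pow_le_pow_right (by norm_num) ((Nat.le_div_iff_mul_le (l0 _)).2 ?_)
      calc _ ≤ (a + 4) * Z * k * l ^ d := by gcongr
        _ = Z * ((a + 4) * k * l ^ d) := by ring
        _ ≤ Z * (l * l ^ d) := by gcongr; omega
        _ ≤ N := by rwa [← pow_succ']

end Vale.Agent.N330B
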